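import Vale.Agent.P346Q.TauBP

/-!
# P346Q: the hard function is a projection of `IMM_{n,n}`
-/

namespace P346Q

open MvPolynomial P346 Finset

theorem ABP2_of_mem {K : Type} [Field K] {ι : Type} [Fintype ι] {f : (ι → K) → K}
    (hf : f ∈ LabX K ι) : ∃ l : (ι → K) × K, f = fun y => ∑ k, l.1 k * y k + l.2 := by
  classical
  unfold LabX at hf
  induction hf using Submodule.span_induction with
  | mem f hf =>
    rcases hf with rfl | ⟨i, rfl⟩
    · refine ⟨(0, 1), ?_⟩
      funext y
      simp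
    · refine ⟨(Pi.single i 1, 0), ?_⟩
      funext y
      simp [Pi.single_apply]
  | zero =>
    refine ⟨(0, 0), ?_⟩
    funext y
    simp
  | add f g _ _ hf hg =>
    obtain ⟨l, rfl⟩ := hf
    obtain ⟨l', rfl⟩ := hg
    refine ⟨l + l', ?_⟩
    funext y
    simp only [Pi.add_apply, Prod.fst_add, Prod.snd_add, add_mul, sum_add_distrib]
    ring
  | smul c f _ hf =>
    obtain ⟨l, rfl⟩ := hf
    refine ⟨c • l, ?_⟩
    funext y
    simp only [Pi.smul_apply, Prod.smul_fst, Prod.smul_snd, smul_eq_mul, mul_add, mul_sum,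
      mul_assoc]

/-- MODULE ABP2: from `tau_isBP`, `IsBP.prod`, `IsBP.exists_imm`; elements of `LabX` are affine
functions. -/
theorem abp2_exists {K : Type} [Field K] [Fintype K] [DecidableEq K] {p m n : ℕ} [NeZero n] (D : ℕ)
    (a : ℕ → K) (hw : m + 2 ≤ n) (hl : p * ((Fintype.card K - 1) * (D + 1)) + 2 ≤ n) :
    ∃ x : Fin n × Fin n × Fin n → (Fin p × Fin m → K) × K,
      aeval (fun v => fun y : Fin p × Fin m → K => ∑ k, (x v).1 k * y k + (x v).2) (IMM K n n) =
        fun y => ∏ b, tau a D (fun k => y (b, k)) := by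
  have hq : 1 < Fintype.card K := Fintype.one_lt_card
  have hl1 : 1 ≤ (Fintype.card K - 1) * (D + 1) :=
    Nat.one_le_iff_ne_zero.mpr (Nat.mul_ne_zero (by omega) (by omega))
  have h1 : IsBP (LabX K (Fin p × Fin m)) (m + 2)
      ((univ : Finset (Fin p)).card * ((Fintype.card K - 1) * (D + 1)))
      (∏ b : Fin p, fun y : Fin p × Fin m → K => tau a D (fun k => y (b, k))) :=
    IsBP.prod TauBP_one_mem (by omega) hl1 univ _
      (fun b _ => tau_isBP (fun k => ((b, k) : Fin p × Fin m)) a D)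
  rw [card_univ, Fintype.card_fin] at h1
  obtain ⟨x, hx, hv⟩ := h1.exists_imm TauBP_one_mem hw hl
  choose l hlx using fun v => ABP2_of_mem (hx v)
  refine ⟨l, ?_⟩
  have h2 : (fun v => fun y : Fin p × Fin m → K => ∑ k, (l v).1 k * y k + (l v).2) = x := by
    funext v
    exact (hlx v).symm
  rw [h2, hv]
  funext y
  rw [Finset.prod_apply]

end P346Q
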