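import Vale.Agent.P346.Def

/-!
# P346Q: branching programs over a commutative algebra with labels in a subspace
-/

namespace P346Q

open MvPolynomial P346 Finset

variable {K A : Type} [Field K] [CommRing A] [Algebra K A]

/-- `f` is computed by a branching program of width `w` and length `l` with labels in `Lab`. -/
def IsBP (Lab : Submodule K A) (w l : ℕ) (f : A) : Prop :=
  ∃ (u : Fin w → K) (M : Fin l → Matrix (Fin w) (Fin w) A) (v : Fin w → K),
    (∀ j a b, M j a b ∈ Lab) ∧
    f = ∑ a, ∑ b, algebraMap K A (u a) * (List.ofFn M).prod a b * algebraMap K A (v b)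

/-- constants as vectors over `A` -/
def cv {S : Type} (u : S → K) : S → A := fun a => algebraMap K A (u a)

theorem bp_val {S : Type} [Fintype S] (u v : S → K) (P : Matrix S S A) :
    ∑ a, ∑ b, algebraMap K A (u a) * P a b * algebraMap K A (v b)
      = dotProduct (cv u) (P.mulVec (cv v)) := by
  simp only [dotProduct, Matrix.mulVec, cv, mul_sum, mul_assoc]

/-- sandwiching a list of matrices -/
theorem sandwich_prod {S T : Type} [Fintype S] [Fintype T] [DecidableEq S] [DecidableEq T]
    (E : Matrix T S A) (F : Matrix S T A) (hE : F * E = 1) (L : List (Matrix S S A)) :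
    F * (L.map fun M => E * M * F).prod * E = L.prod := by
  induction L with
  | nil => simp [hE]
  | cons M L ih =>
    simp only [List.map_cons, List.prod_cons]
    calc F * (E * M * F * (L.map fun M => E * M * F).prod) * E
        = (F * E) * M * (F * (L.map fun M => E * M * F).prod * E) := by
          simp only [Matrix.mul_assoc]
      _ = M * L.prod := by rw [ih, hE, Matrix.one_mul]

/-- MODULE BP (1): programs whose state space is any type with at most `w` elements. -/
theorem isBP_of_fintype {Lab : Submodule K A} {w l : ℕ} {f : A} {S : Type} [Fintype S]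
    [DecidableEq S] (hS : Fintype.card S ≤ w) (u : S → K) (M : Fin l → Matrix S S A) (v : S → K)
    (hM : ∀ j a b, M j a b ∈ Lab)
    (hf : f = ∑ a, ∑ b, algebraMap K A (u a) * (List.ofFn M).prod a b * algebraMap K A (v b)) :
    IsBP Lab w l f := by
  classical
  obtain ⟨e⟩ : Nonempty (S ↪ Fin w) := by
    apply Function.Embedding.nonempty_of_card_le
    simpa using hS
  let E : Matrix (Fin w) S A := Matrix.of fun a s => if a = e s then 1 else 0
  let F : Matrix S (Fin w) A := Matrix.of fun s a => if a = e s then 1 else 0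
  have hFE : F * E = 1 := by
    ext s t
    rw [Matrix.mul_apply]
    simp only [F, E, Matrix.of_apply, Matrix.one_apply, ite_mul, one_mul, zero_mul,
      sum_ite_eq', mem_univ, if_true, e.injective.eq_iff]
  let u' : Fin w → K := fun a => ∑ s, if a = e s then u s else 0
  let v' : Fin w → K := fun a => ∑ s, if a = e s then v s else 0
  refine ⟨u', fun j => E * M j * F, v', ?_, ?_⟩
  · intro j a b
    show (E * M j * F) a b ∈ Lab
    rw [Matrix.mul_apply]
    refine Submodule.sum_mem _ fun t _ => ?_
    simp only [F, Matrix.of_apply, mul_ite, mul_one, mul_zero]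
    split_ifs
    · rw [Matrix.mul_apply]
      refine Submodule.sum_mem _ fun s _ => ?_
      simp only [E, Matrix.of_apply, ite_mul, one_mul, zero_mul]
      split_ifs
      · exact hM _ _ _
      · exact Lab.zero_mem
    · exact Lab.zero_mem
  · have hlist : (List.ofFn fun j => E * M j * F) = (List.ofFn M).map fun M => E * M * F := by
      rw [List.map_ofFn]; rfl
    have hs := sandwich_prod E F hFE (List.ofFn M)
    rw [← hlist] at hs
    rw [hf, bp_val, bp_val, ← hs]
    have h1 : (cv u' : Fin w → A) = Matrix.vecMul (cv u) F := by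
      ext a
      simp only [u', F, cv, map_sum, Matrix.vecMul, dotProduct, Matrix.of_apply, mul_ite, mul_one,
        mul_zero]
      refine sum_congr rfl fun s _ => ?_
      split_ifs <;> simp
    have h2 : (cv v' : Fin w → A) = Matrix.mulVec E (cv v) := by
      ext a
      simp only [v', E, cv, map_sum, Matrix.mulVec, dotProduct, Matrix.of_apply, ite_mul, one_mul,
        zero_mul]
      refine sum_congr rfl fun s _ => ?_
      split_ifs <;> simp
    rw [h1, h2, ← Matrix.dotProduct_mulVec, Matrix.mulVec_mulVec, Matrix.mulVec_mulVec,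
      Matrix.mul_assoc]

/-- MODULE BP (2): padding. -/
theorem IsBP.mono {Lab : Submodule K A} (h1 : (1 : A) ∈ Lab) {w l w' l' : ℕ} {f : A}
    (hf : IsBP Lab w l f) (hw : w ≤ w') (hl : l ≤ l') : IsBP Lab w' l' f := by
  obtain ⟨k, rfl⟩ := Nat.exists_eq_add_of_le hl
  obtain ⟨u, M, v, hM, hf⟩ := hf
  refine isBP_of_fintype (S := Fin w) (by simpa using hw) u
    (Fin.append M (fun _ : Fin k => 1)) v ?_ ?_
  · intro j
    refine Fin.addCases (fun i => ?_) (fun i => ?_) j
    · intro a b
      rw [Fin.append_left]
      exact hM i a b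
    · intro a b
      rw [Fin.append_right, Matrix.one_apply]
      split_ifs
      · exact h1
      · exact Lab.zero_mem
  · rw [hf, List.ofFn_fin_append, List.prod_append]
    simp

/-- MODULE BP (3): products. -/
theorem IsBP.mul {Lab : Submodule K A} {w l l' : ℕ} {f g : A}
    (hf : IsBP Lab w l f) (hg : IsBP Lab w l' g) (hl' : 1 ≤ l') : IsBP Lab w (l + l') (f * g) := by
  obtain ⟨k, rfl⟩ : ∃ k, l' = k + 1 := ⟨l' - 1, by omega⟩
  obtain ⟨u, M, v, hM, hf⟩ := hf
  obtain ⟨u', M', v', hM', hg⟩ := hg
  let V : Matrix (Fin w) (Fin w) A := Matrix.vecMulVec (cv v) (cv u')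
  refine ⟨u, Fin.append M (Fin.cons (V * M' 0) (fun j => M' j.succ)), v', ?_, ?_⟩
  · intro j
    refine Fin.addCases (fun i => ?_) (fun i => ?_) j
    · intro a b
      rw [Fin.append_left]
      exact hM i a b
    · intro a b
      rw [Fin.append_right]
      refine Fin.cases ?_ (fun i => ?_) i
      · rw [Fin.cons_zero, Matrix.mul_apply]
        refine Submodule.sum_mem _ fun c _ => ?_
        simp only [V, Matrix.vecMulVec_apply, cv]
        rw [← map_mul, ← Algebra.smul_def]
        exact Lab.smul_mem _ (hM' 0 c b)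
      · rw [Fin.cons_succ]
        exact hM' _ a b
  · rw [hf, hg, List.ofFn_fin_append, List.prod_append, List.ofFn_cons, List.prod_cons,
      Matrix.mul_assoc V]
    have hP' : M' 0 * (List.ofFn fun j => M' (Fin.succ j)).prod = (List.ofFn M').prod := by
      rw [List.ofFn_succ, List.prod_cons]
    rw [hP', bp_val, bp_val, bp_val]
    generalize (List.ofFn M).prod = P
    generalize (List.ofFn M').prod = P'
    rw [← Matrix.mulVec_mulVec, ← Matrix.mulVec_mulVec]
    have hV : ∀ x : Fin w → A, V.mulVec x = (dotProduct (cv u') x) • (cv v : Fin w → A) := by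
      intro x
      ext a
      simp only [V, Matrix.mulVec, dotProduct, Matrix.vecMulVec_apply, Pi.smul_apply, smul_eq_mul,
        sum_mul]
      refine sum_congr rfl fun s _ => ?_
      ring
    rw [hV, Matrix.mulVec_smul, dotProduct_smul, smul_eq_mul, mul_comm]

/-- MODULE BP (4): finite products. -/
theorem IsBP.prod {Lab : Submodule K A} (h1 : (1 : A) ∈ Lab) {w l : ℕ} (hw : 1 ≤ w) (hl : 1 ≤ l)
    {α : Type} [DecidableEq α] (s : Finset α) (f : α → A) (hf : ∀ i ∈ s, IsBP Lab w l (f i)) :
    IsBP Lab w (s.card * l) (∏ i ∈ s, f i) := by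
  induction s using Finset.induction_on with
  | empty =>
    obtain ⟨k, rfl⟩ : ∃ k, w = k + 1 := ⟨w - 1, by omega⟩
    refine ⟨fun a => if a = 0 then 1 else 0, fun j => 1, fun a => if a = 0 then 1 else 0, ?_, ?_⟩
    · intro j a b
      show (1 : Matrix (Fin (k + 1)) (Fin (k + 1)) A) a b ∈ Lab
      rw [Matrix.one_apply]
      split_ifs
      · exact h1
      · exact Lab.zero_mem
    · have : (List.ofFn fun _ : Fin ((∅ : Finset α).card * l) =>
          (1 : Matrix (Fin (k + 1)) (Fin (k + 1)) A)).prod = 1 := by
        simp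
      rw [this]
      simp [Matrix.one_apply]
  | insert a s ha ih =>
    rw [prod_insert ha, card_insert_of_notMem ha, add_mul, one_mul, mul_comm (f a)]
    exact (ih fun i hi => hf i (mem_insert_of_mem hi)).mul (hf a (mem_insert_self a s)) hl

/-- MODULE BP (5): finite sums. -/
theorem IsBP.sum {Lab : Submodule K A} {w l : ℕ} {α : Type} [Fintype α] [DecidableEq α]
    (f : α → A) (hf : ∀ i, IsBP Lab w l (f i)) :
    IsBP Lab (Fintype.card α * w) l (∑ i, f i) := by
  choose u M v hM hf using hf
  refine isBP_of_fintype (S := Fin w × α) (by simp [mul_comm]) (fun p => u p.2 p.1)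
    (fun j => Matrix.blockDiagonal fun i => M i j) (fun p => v p.2 p.1) ?_ ?_
  · rintro j ⟨a, i⟩ ⟨b, i'⟩
    rw [Matrix.blockDiagonal_apply]
    split_ifs
    · exact hM _ _ _ _
    · exact Lab.zero_mem
  · have hprod : (List.ofFn fun j => Matrix.blockDiagonal fun i => M i j).prod
        = Matrix.blockDiagonal fun i => (List.ofFn (M i)).prod := by
      have h1 : (List.ofFn fun j => Matrix.blockDiagonal fun i => M i j)
          = (List.ofFn fun j => fun i => M i j).map
            (Matrix.blockDiagonalRingHom (Fin w) α A) := by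
        rw [List.map_ofFn]; rfl
      rw [h1, ← map_list_prod]
      show Matrix.blockDiagonal _ = _
      congr 1
      ext i : 1
      have h2 : (List.ofFn (M i)) = (List.ofFn fun j => fun i => M i j).map
          (Pi.evalMonoidHom (fun _ : α => Matrix (Fin w) (Fin w) A) i) := by
        rw [List.map_ofFn]; rfl
      rw [h2, ← map_list_prod]
      rfl
    rw [hprod, Fintype.sum_prod_type_right]
    refine sum_congr rfl fun i _ => ?_
    rw [hf i]
    refine sum_congr rfl fun a _ => ?_
    rw [Fintype.sum_prod_type]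
    refine sum_congr rfl fun b _ => ?_
    simp only [Matrix.blockDiagonal_apply, mul_ite, mul_zero, ite_mul, zero_mul]
    simp

/-- MODULE BP (6): a label is a program of length one. -/
theorem isBP_label {Lab : Submodule K A} {w : ℕ} (hw : 1 ≤ w) {f : A} (hf : f ∈ Lab) :
    IsBP Lab w 1 f := by
  obtain ⟨k, rfl⟩ : ∃ k, w = k + 1 := ⟨w - 1, by omega⟩
  refine ⟨fun a => if a = 0 then 1 else 0, fun _ => Matrix.of fun a b => if a = 0 then f else 0,
    fun a => if a = 0 then 1 else 0, ?_, ?_⟩
  · intro j a b
    simp only [Matrix.of_apply]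
    split_ifs
    · exact hf
    · exact Lab.zero_mem
  · simp

/-- MODULE BP (7): images under algebra maps. -/
theorem IsBP.map {A' : Type} [CommRing A'] [Algebra K A'] (φ : A →ₐ[K] A') {Lab : Submodule K A}
    {Lab' : Submodule K A'} (h : ∀ a ∈ Lab, φ a ∈ Lab') {w l : ℕ} {f : A} (hf : IsBP Lab w l f) :
    IsBP Lab' w l (φ f) := by
  obtain ⟨u, M, v, hM, hf⟩ := hf
  refine ⟨u, fun j => (φ : A →+* A').mapMatrix (M j), v, fun j a b => h _ (hM j a b), ?_⟩
  have h1 : (List.ofFn fun j => (φ : A →+* A').mapMatrix (M j))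
      = (List.ofFn M).map ((φ : A →+* A').mapMatrix) := by
    rw [List.map_ofFn]; rfl
  rw [h1, ← map_list_prod, hf]
  simp only [map_sum, map_mul, AlgHom.commutes]
  rfl

/-- MODULE BP (8): a branching program is a projection of iterated matrix multiplication. -/
theorem IsBP.exists_imm {Lab : Submodule K A} (h1 : (1 : A) ∈ Lab) {w l n : ℕ} [NeZero n] {f : A}
    (hf : IsBP Lab w l f) (hw : w ≤ n) (hl : l + 2 ≤ n) :
    ∃ x : Fin n × Fin n × Fin n → A, (∀ v, x v ∈ Lab) ∧ aeval x (IMM K n n) = f := by
  obtain ⟨m, rfl⟩ : ∃ m, n = m + 2 := ⟨n - 2, by omega⟩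
  obtain ⟨u, M, v, hM, hf⟩ := hf.mono h1 hw (show l ≤ m by omega)
  let U : Matrix (Fin (m + 2)) (Fin (m + 2)) A :=
    Matrix.of fun a b => if a = 0 then algebraMap K A (u b) else 0
  let V : Matrix (Fin (m + 2)) (Fin (m + 2)) A :=
    Matrix.of fun a b => if b = 0 then algebraMap K A (v a) else 0
  let Y : Fin (m + 2) → Matrix (Fin (m + 2)) (Fin (m + 2)) A :=
    Fin.cons U (Fin.append M (fun _ : Fin 1 => V))
  have hc : ∀ c : K, algebraMap K A c ∈ Lab := by
    intro c
    rw [Algebra.algebraMap_eq_smul_one]
    exact Lab.smul_mem _ h1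
  have hY : ∀ k a b, Y k a b ∈ Lab := by
    intro k
    refine Fin.cases ?_ (fun i => ?_) k
    · intro a b
      simp only [Y, Fin.cons_zero, U, Matrix.of_apply]
      split_ifs
      · exact hc _
      · exact Lab.zero_mem
    · simp only [Y, Fin.cons_succ]
      refine Fin.addCases (fun j => ?_) (fun j => ?_) i
      · intro a b
        rw [Fin.append_left]
        exact hM j a b
      · intro a b
        rw [Fin.append_right]
        simp only [V, Matrix.of_apply]
        split_ifs
        · exact hc _
        · exact Lab.zero_mem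
  refine ⟨fun p => Y p.1 p.2.1 p.2.2, fun p => hY _ _ _, ?_⟩
  have h2 : aeval (fun p : Fin (m + 2) × Fin (m + 2) × Fin (m + 2) => Y p.1 p.2.1 p.2.2)
      (IMM K (m + 2) (m + 2)) = (List.ofFn Y).prod 0 0 := by
    unfold IMM
    set φ : MvPolynomial (Fin (m + 2) × Fin (m + 2) × Fin (m + 2)) K →ₐ[K] A :=
      aeval (fun p : Fin (m + 2) × Fin (m + 2) × Fin (m + 2) => Y p.1 p.2.1 p.2.2) with hφ
    have h3 : (List.ofFn Y) = (List.ofFn fun k : Fin (m + 2) =>
        (Matrix.of fun a b => MvPolynomial.X (k, a, b) :
          Matrix (Fin (m + 2)) (Fin (m + 2))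
            (MvPolynomial (Fin (m + 2) × Fin (m + 2) × Fin (m + 2)) K))).map
          ((φ : _ →+* A).mapMatrix) := by
      rw [List.map_ofFn]
      congr 1
      ext k a b
      simp [φ]
    rw [h3, ← map_list_prod]
    rfl
  rw [h2]
  have h4 : (List.ofFn Y).prod = U * ((List.ofFn M).prod * V) := by
    simp only [Y]
    rw [List.ofFn_cons, List.prod_cons, List.ofFn_fin_append, List.prod_append]
    simp
  rw [h4, hf, Matrix.mul_apply]
  refine sum_congr rfl fun a _ => ?_
  rw [Matrix.mul_apply, mul_sum]
  refine sum_congr rfl fun b _ => ?_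
  simp [U, V, mul_assoc]

end P346Q
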