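import Vale.Agent.P346Q.TauDef

namespace P346Q

open Finset

variable {K : Type} [Field K]

/-- MODULE Coef: interpolation on a window. Induction on `lo`: for `lo = 0` take
`a j = w^? (w-1)^j`; if `a'` works for `lo` and the function `v ↦ w^(v+1)` then `a` with
`a j + a (j+1) = a' j` for `j ≤ D` (`a (D+1) = 0`) works for `lo + 1`. -/
theorem exists_window_coef (w : K) (lo D : ℕ) :
    ∃ a : ℕ → K, ∀ v, lo ≤ v → v ≤ lo + D → tauN a D v = w ^ v := by
  induction lo with
  | zero =>
    refine ⟨fun j => (w - 1) ^ j, fun v _ hv => ?_⟩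
    have h : w ^ v = ((w - 1) + 1) ^ v := by ring_nf
    rw [h, add_pow]
    unfold tauN
    have hsub : range (v + 1) ⊆ range (D + 1) := by
      intro x hx
      simp only [mem_range] at hx ⊢
      omega
    rw [← sum_subset hsub]
    · refine sum_congr rfl fun j _ => by simp
    · intro x _ hx
      simp only [mem_range, not_lt] at hx
      rw [Nat.choose_eq_zero_of_lt (by omega)]
      simp
  | succ lo ih =>
    obtain ⟨a0, ha0⟩ := ih
    -- backward recursion
    let c : ℕ → K := fun k => Nat.rec 0 (fun k r => w * a0 (D - k) - r) k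
    have hc0 : c 0 = 0 := rfl
    have hcs : ∀ k, c (k + 1) = w * a0 (D - k) - c k := fun k => rfl
    refine ⟨fun j => c (D + 1 - j), fun v hv1 hv2 => ?_⟩
    obtain ⟨u, rfl⟩ : ∃ u, v = u + 1 := ⟨v - 1, by omega⟩
    have key : tauN (fun j => c (D + 1 - j)) D (u + 1) = w * tauN a0 D u := by
      unfold tauN
      rw [mul_sum]
      have hstep : ∀ j ∈ range (D + 1), c (D + 1 - j) = w * a0 j - c (D + 1 - (j + 1)) := by
        intro j hj
        simp only [mem_range] at hj
        have h1 : D + 1 - j = (D - j) + 1 := by omega
        have h2 : D - (D - j) = j := by omega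
        have h3 : D + 1 - (j + 1) = D - j := by omega
        rw [h1, hcs, h2, h3]
      -- left side
      have hL : ∑ j ∈ range (D + 1), c (D + 1 - j) * ((u + 1).choose j : K)
          = ∑ j ∈ range (D + 1), (c (D + 1 - j) + c (D + 1 - (j + 1))) * (u.choose j : K) := by
        rw [sum_range_succ' (fun j => c (D + 1 - j) * ((u + 1).choose j : K))]
        simp only [Nat.choose_succ_succ', Nat.cast_add, mul_add, Nat.choose_zero_right,
          Nat.cast_one, mul_one, add_mul, sum_add_distrib]
        have e1 : ∑ j ∈ range D, c (D + 1 - (j + 1)) * (u.choose (j + 1) : K) + c (D + 1 - 0)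
            = ∑ j ∈ range (D + 1), c (D + 1 - j) * (u.choose j : K) := by
          rw [sum_range_succ' (fun j => c (D + 1 - j) * (u.choose j : K))]
          simp
        have e2 : ∑ j ∈ range (D + 1), c (D + 1 - (j + 1)) * (u.choose j : K)
            = ∑ j ∈ range D, c (D + 1 - (j + 1)) * (u.choose j : K) := by
          rw [sum_range_succ]
          simp [hc0]
        rw [e2, ← e1]
        ring
      rw [hL]
      refine sum_congr rfl fun j hj => ?_
      rw [hstep j hj]
      ring
    rw [key, ha0 u (by omega) (by omega), pow_succ]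
    ring

end P346Q
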