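import Vale.Agent.P346Q.Low

/-!
# P346Q: the dual form of Smolensky's argument on products of windows, every field
-/

namespace P346Q

open Finset

/-- A polynomial of degree less than the number of variables has vanishing signed sum over the
cube. -/
theorem signed_sum_low_eq_zero {K : Type*} [CommRing K] {ι : Type*} [Fintype ι] [DecidableEq ι]
    {f : (ι → Bool) → K} {d : ℕ}
    (hf : f ∈ Low K d) (hd : d < Fintype.card ι) : ∑ x, (∏ i, (if x i then (-1 : K) else 1)) * f x = 0 := by
  unfold Low at hf
  induction hf using Submodule.span_induction with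
  | mem f hf =>
    obtain ⟨I, hI, rfl⟩ := hf
    simp only [Set.mem_ofPred_eq] at hI
    have h1 : ∃ j, j ∉ I := by
      by_contra hcon
      push Not at hcon
      have : I = univ := Finset.eq_univ_iff_forall.mpr hcon
      rw [this, Finset.card_univ] at hI
      omega
    obtain ⟨j, hj⟩ := h1
    refine Finset.sum_involution (fun x _ => Function.update x j (!x j)) ?_ ?_ ?_ ?_
    · intro x _
      have h2 : mon K I (Function.update x j (!x j)) = mon K I x := by
        unfold mon
        refine Finset.prod_congr rfl fun i hi => ?_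
        have : i ≠ j := fun h => hj (h ▸ hi)
        rw [Function.update_of_ne this]
      have h3 : ∏ i, (if Function.update x j (!x j) i then (-1 : K) else 1) =
          - ∏ i, (if x i then (-1 : K) else 1) := by
        rw [← Finset.mul_prod_erase univ _ (Finset.mem_univ j),
          ← Finset.mul_prod_erase univ (fun i => if x i then (-1 : K) else 1) (Finset.mem_univ j)]
        have h4 : ∏ i ∈ univ.erase j, (if Function.update x j (!x j) i then (-1 : K) else 1) =
            ∏ i ∈ univ.erase j, (if x i then (-1 : K) else 1) := by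
          refine Finset.prod_congr rfl fun i hi => ?_
          rw [Function.update_of_ne (Finset.ne_of_mem_erase hi)]
        rw [h4, Function.update_self]
        cases x j <;> simp
      rw [h2, h3]
      ring
    · intro x _ _ h
      have := congrFun h j
      simp at this
    · intro x _
      exact Finset.mem_univ _
    · intro x _
      funext i
      by_cases h : i = j
      · subst h; simp
      · simp [Function.update_of_ne h]
  | zero => simp
  | add a b _ _ ha hb => simp only [Pi.add_apply, mul_add, Finset.sum_add_distrib, ha, hb, add_zero]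
  | smul c a _ ha =>
    simp only [Pi.smul_apply, smul_eq_mul, mul_left_comm _ c, ← Finset.mul_sum, ha, mul_zero]

section

variable {L : Type*} [Field L] {ι : Type*}

theorem char_mem_low (w : L) (i : ι) :
    (fun x : ι → Bool => (if x i then w else 1)) ∈ Low L 1 := by
  have h : (fun x : ι → Bool => (if x i then w else 1)) =
      (1 : (ι → Bool) → L) + (w - 1) • (fun x : ι → Bool => (if x i then (1 : L) else 0)) := by
    funext x
    cases hx : x i <;> simp [hx]
  rw [h]
  exact Submodule.add_mem _ (one_mem_low _) (Submodule.smul_mem _ _ (var_mem_low i))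

theorem char_prod_mem_low (w : L) (S : Finset ι) :
    (fun x : ι → Bool => ∏ i ∈ S, (if x i then w else 1)) ∈ Low L S.card := by
  have h : (fun x : ι → Bool => ∏ i ∈ S, (if x i then w else 1)) =
      ∏ i ∈ S, (fun x : ι → Bool => (if x i then w else 1)) := by
    funext x; simp
  rw [h]
  have := prod_mem_low (K := L) S (fun i => (fun x : ι → Bool => (if x i then w else 1))) 1
    (fun i _ => char_mem_low w i)
  rwa [mul_one] at this

/-- If `p` of degree `Δ` agrees with the character on the product of the windows outside `E`, then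
`E` is large. -/
theorem core {S : Type*} [Fintype S] [DecidableEq S] (w : L) (h0 : w ≠ 0) (h1 : w ≠ 1)
    {R z d Δ : ℕ} (W : Finset (S → Bool)) (φ : Fin z → (S → Bool) → L) (hφ : ∀ i, φ i ∈ Low L d)
    (hsupp : ∀ i x, x ∉ W → φ i x = 0) (pt : Fin z → S → Bool)
    (hpt : ∀ i j, φ i (pt j) = if i = j then 1 else 0)
    (p : (Fin R × S → Bool) → L) (hp : p ∈ Low L Δ) (E : Finset (Fin R × S → Bool))
    (hE : ∀ x ∉ E, (∀ b, (fun i => x (b, i)) ∈ W) → p x = ∏ i, (if x i then w else 1))
    (hdeg : R * d + (R * Fintype.card S) / 2 + Δ < R * Fintype.card S) : z ^ R ≤ E.card := by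
  classical
  by_contra hlt
  push Not at hlt
  set m := Fintype.card S with hm
  -- the product functions
  let Φ : (Fin R → Fin z) → (Fin R × S → Bool) → L :=
    fun I x => ∏ b, φ (I b) (fun i => x (b, i))
  let P : (Fin R → Fin z) → (Fin R × S → Bool) := fun I bi => pt (I bi.1) bi.2
  have hΦP : ∀ I J, Φ I (P J) = if I = J then 1 else 0 := by
    intro I J
    have : Φ I (P J) = ∏ b, (if I b = J b then (1 : L) else 0) := by
      refine Finset.prod_congr rfl fun b _ => ?_
      exact hpt (I b) (J b)
    rw [this, Finset.prod_ite_zero]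
    by_cases h : I = J
    · subst h; simp
    · have h' : ¬ ∀ i ∈ (univ : Finset (Fin R)), I i = J i := fun hh =>
        h (funext fun i => hh i (Finset.mem_univ _))
      rw [if_neg h, if_neg h']
  have hΦlow : ∀ I, Φ I ∈ Low L (R * d) := by
    intro I
    have e : Φ I = ∏ b : Fin R, (fun x : Fin R × S → Bool => φ (I b) (fun i => x (b, i))) := by
      funext x; simp [Φ]
    rw [e]
    have := prod_mem_low (K := L) (univ : Finset (Fin R))
      (fun b => (fun x : Fin R × S → Bool => φ (I b) (fun i => x (b, i)))) d
      (fun b _ => comp_mem_low (fun i => (b, i)) (hφ (I b)))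
    simpa using this
  -- a combination vanishing on `E`
  let T : ((Fin R → Fin z) → L) →ₗ[L] (E → L) :=
    { toFun := fun c e => ∑ I, c I * Φ I e.1
      map_add' := by
        intro a b; funext e
        simp [add_mul, Finset.sum_add_distrib]
      map_smul' := by
        intro a b; funext e
        simp [Finset.mul_sum, mul_assoc] }
  have hker : LinearMap.ker T ≠ ⊥ := by
    apply LinearMap.ker_ne_bot_of_finrank_lt
    rw [Module.finrank_fintype_fun_eq_card, Module.finrank_fintype_fun_eq_card]
    simpa using hlt
  obtain ⟨c, hcker, hc0⟩ := Submodule.exists_mem_ne_zero_of_ne_bot hker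
  have hc : ∀ x ∈ E, ∑ I, c I * Φ I x = 0 := by
    intro x hx
    have := LinearMap.mem_ker.mp hcker
    exact congrFun this ⟨x, hx⟩
  obtain ⟨I0, hI0⟩ : ∃ I, c I ≠ 0 := by
    by_contra hcon
    push Not at hcon
    exact hc0 (funext hcon)
  let ψ : (Fin R × S → Bool) → L := fun x => ∑ I, c I * Φ I x
  have hψlow : ψ ∈ Low L (R * d) := by
    have e : ψ = ∑ I, c I • Φ I := by
      funext x; simp [ψ]
    rw [e]
    exact Submodule.sum_mem _ fun I _ => Submodule.smul_mem _ _ (hΦlow I)
  have hψP : ψ (P I0) = c I0 := by
    simp only [ψ, hΦP]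
    simp
  have hψsupp : ∀ x, (¬ ∀ b, (fun i => x (b, i)) ∈ W) → ψ x = 0 := by
    intro x hx
    push Not at hx
    obtain ⟨b, hb⟩ := hx
    refine Finset.sum_eq_zero fun I _ => ?_
    have : Φ I x = 0 := Finset.prod_eq_zero (Finset.mem_univ b) (hsupp _ _ hb)
    rw [this, mul_zero]
  -- the indicator of the point
  obtain ⟨c', hc'⟩ := exists_char_expansion w h1 (fun x => if x = P I0 then (1 : L) else 0)
  let Q : (Fin R × S → Bool) → L := fun x => ∑ A, c' A *
    (if A.card ≤ (R * m) / 2 then ∏ i ∈ A, (if x i then w else 1)
      else p x * ∏ i ∈ Aᶜ, (if x i then w⁻¹ else 1))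
  have hQlow : Q ∈ Low L ((R * m) / 2 + Δ) := by
    have e : Q = ∑ A : Finset (Fin R × S), c' A •
        (if A.card ≤ (R * m) / 2 then (fun x => ∏ i ∈ A, (if x i then w else 1))
          else p * fun x => ∏ i ∈ Aᶜ, (if x i then w⁻¹ else 1)) := by
      funext x
      simp only [Q, Finset.sum_apply, Pi.smul_apply, smul_eq_mul]
      refine Finset.sum_congr rfl fun A _ => ?_
      split_ifs <;> rfl
    rw [e]
    refine Submodule.sum_mem _ fun A _ => Submodule.smul_mem _ _ ?_
    split_ifs with h
    · exact low_mono (by omega) (char_prod_mem_low w A)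
    · rw [add_comm]
      refine mul_mem_low hp (low_mono ?_ (char_prod_mem_low w⁻¹ Aᶜ))
      rw [Finset.card_compl]
      have : Fintype.card (Fin R × S) = R * m := by simp [hm]
      rw [this]
      omega
  have hQ : ∀ x ∉ E, (∀ b, (fun i => x (b, i)) ∈ W) → Q x = if x = P I0 then (1 : L) else 0 := by
    intro x hx hxW
    have h2 := hc' x
    rw [h2]
    refine Finset.sum_congr rfl fun A _ => ?_
    congr 1
    split_ifs with h
    · rfl
    · rw [hE x hx hxW]
      rw [← Finset.prod_mul_prod_compl A (fun i => if x i then w else (1 : L)), mul_assoc,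
        ← Finset.prod_mul_distrib]
      have : ∏ i ∈ Aᶜ, (if x i then w else (1 : L)) * (if x i then w⁻¹ else 1) = 1 := by
        refine Finset.prod_eq_one fun i _ => ?_
        split_ifs
        · exact mul_inv_cancel₀ h0
        · exact mul_one 1
      rw [this, mul_one]
  have hsum0 : ∑ x, (∏ i, (if x i then (-1 : L) else 1)) * (ψ x * Q x) = 0 := by
    have h3 : ψ * Q ∈ Low L (R * d + ((R * m) / 2 + Δ)) := mul_mem_low hψlow hQlow
    have h4 := signed_sum_low_eq_zero h3 (by
      have : Fintype.card (Fin R × S) = R * m := by simp [hm]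
      rw [this]; omega)
    simpa using h4
  have hsum1 : ∑ x, (∏ i, (if x i then (-1 : L) else 1)) * (ψ x * Q x) =
      (∏ i, (if P I0 i then (-1 : L) else 1)) * ψ (P I0) := by
    have h5 : ∀ x, (∏ i, (if x i then (-1 : L) else 1)) * (ψ x * Q x) =
        (∏ i, (if x i then (-1 : L) else 1)) * (ψ x * (if x = P I0 then (1 : L) else 0)) := by
      intro x
      by_cases hx : x ∈ E
      · have : ψ x = 0 := hc x hx
        rw [this, zero_mul, zero_mul]
      · by_cases hxW : ∀ b, (fun i => x (b, i)) ∈ W
        · rw [hQ x hx hxW]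
        · rw [hψsupp x hxW, zero_mul, zero_mul]
    rw [Finset.sum_congr rfl fun x _ => h5 x]
    simp
  rw [hsum1, hψP] at hsum0
  have hsgn : ∏ i, (if P I0 i then (-1 : L) else 1) ≠ 0 := by
    refine Finset.prod_ne_zero_iff.mpr fun i _ => ?_
    split_ifs
    · exact neg_ne_zero.mpr one_ne_zero
    · exact one_ne_zero
  exact (mul_ne_zero hsgn hI0) hsum0

end

end P346Q
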