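import Mathlib

/-!
# P346: low degree functions on the Boolean cube
-/

namespace P346Q

open Finset

variable (K : Type*) [CommRing K] {ι : Type*}

/-- The monomial function `x ↦ ∏_{i ∈ I} x_i` on the Boolean cube. -/
def mon (I : Finset ι) (x : ι → Bool) : K := ∏ i ∈ I, (if x i then 1 else 0)

/-- The functions on the Boolean cube which are polynomials of degree at most `d`. -/
def Low (d : ℕ) : Submodule K ((ι → Bool) → K) :=
  Submodule.span K (mon K '' {I : Finset ι | I.card ≤ d})

/-- The Hamming weight. -/
def wt [Fintype ι] (x : ι → Bool) : ℕ := (univ.filter fun i => x i = true).card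

variable {K}

theorem mon_mem_low {I : Finset ι} {d : ℕ} (h : I.card ≤ d) : mon K I ∈ Low K (ι := ι) d :=
  Submodule.subset_span ⟨I, h, rfl⟩

theorem low_mono {d e : ℕ} (h : d ≤ e) : Low K (ι := ι) d ≤ Low K e :=
  Submodule.span_mono (Set.image_mono fun _ hI => le_trans hI h)

theorem mon_mul_mon [DecidableEq ι] (I J : Finset ι) : mon K I * mon K J = mon K (I ∪ J) := by
  funext x
  simp only [Pi.mul_apply, mon]
  rw [Finset.prod_ite_zero, Finset.prod_ite_zero, Finset.prod_ite_zero]
  by_cases h1 : ∀ i ∈ I, x i = true
  · by_cases h2 : ∀ i ∈ J, x i = true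
    · have h3 : ∀ i ∈ I ∪ J, x i = true := by
        intro i hi
        rcases Finset.mem_union.mp hi with h | h
        · exact h1 i h
        · exact h2 i h
      simp only [if_pos h1, if_pos h2, if_pos h3, Finset.prod_const_one, mul_one]
    · have h3 : ¬ ∀ i ∈ I ∪ J, x i = true := fun h =>
        h2 fun i hi => h i (Finset.mem_union_right _ hi)
      simp only [if_neg h2, if_neg h3, mul_zero]
  · have h3 : ¬ ∀ i ∈ I ∪ J, x i = true := fun h =>
      h1 fun i hi => h i (Finset.mem_union_left _ hi)
    simp only [if_neg h1, if_neg h3, zero_mul]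

theorem one_mem_low (d : ℕ) : (1 : (ι → Bool) → K) ∈ Low K d := by
  have h : (1 : (ι → Bool) → K) = mon K ∅ := by
    funext x; simp [mon]
  rw [h]
  exact mon_mem_low (by simp)

theorem const_mem_low (c : K) (d : ℕ) : (fun _ : ι → Bool => c) ∈ Low K d := by
  have h : (fun _ : ι → Bool => c) = c • (1 : (ι → Bool) → K) := by
    funext x; simp
  rw [h]
  exact Submodule.smul_mem _ _ (one_mem_low d)

theorem var_mem_low (i : ι) : (fun x : ι → Bool => (if x i then (1 : K) else 0)) ∈ Low K 1 := by
  have h : (fun x : ι → Bool => (if x i then (1 : K) else 0)) = mon K {i} := by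
    funext x; simp [mon]
  rw [h]
  exact mon_mem_low (by simp)

theorem mul_mem_low {f g : (ι → Bool) → K} {d e : ℕ} (hf : f ∈ Low K d) (hg : g ∈ Low K e) :
    f * g ∈ Low K (d + e) := by
  classical
  unfold Low at hf hg
  induction hf using Submodule.span_induction with
  | mem f hf =>
    obtain ⟨I, hI, rfl⟩ := hf
    induction hg using Submodule.span_induction with
    | mem g hg =>
      obtain ⟨J, hJ, rfl⟩ := hg
      rw [mon_mul_mon]
      refine mon_mem_low ((Finset.card_union_le _ _).trans ?_)
      simp only [Set.mem_ofPred_eq] at hI hJ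
      omega
    | zero => rw [mul_zero]; exact Submodule.zero_mem _
    | add a b _ _ ha hb => rw [mul_add]; exact Submodule.add_mem _ ha hb
    | smul c a _ ha => rw [mul_smul_comm]; exact Submodule.smul_mem _ _ ha
  | zero => rw [zero_mul]; exact Submodule.zero_mem _
  | add a b _ _ ha hb => rw [add_mul]; exact Submodule.add_mem _ ha hb
  | smul c a _ ha => rw [smul_mul_assoc]; exact Submodule.smul_mem _ _ ha

theorem prod_mem_low {α : Type*} (s : Finset α) (f : α → (ι → Bool) → K) (d : ℕ)
    (h : ∀ a ∈ s, f a ∈ Low K d) : ∏ a ∈ s, f a ∈ Low K (s.card * d) := by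
  classical
  induction s using Finset.induction_on with
  | empty => simpa using one_mem_low 0
  | insert a s ha ih =>
    rw [Finset.prod_insert ha, Finset.card_insert_of_notMem ha, add_mul, one_mul, add_comm]
    exact mul_mem_low (h a (Finset.mem_insert_self a s))
      (ih fun b hb => h b (Finset.mem_insert_of_mem hb))

theorem prod_mem_low' {α : Type*} (s : Finset α) (f : α → (ι → Bool) → K) (d : α → ℕ)
    (h : ∀ a ∈ s, f a ∈ Low K (d a)) : ∏ a ∈ s, f a ∈ Low K (∑ a ∈ s, d a) := by
  classical
  induction s using Finset.induction_on with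
  | empty => simpa using one_mem_low 0
  | insert a s ha ih =>
    rw [Finset.prod_insert ha, Finset.sum_insert ha]
    exact mul_mem_low (h a (Finset.mem_insert_self a s))
      (ih fun b hb => h b (Finset.mem_insert_of_mem hb))

/-- Change of variables: substituting coordinates. -/
theorem comp_mem_low {κ : Type*} (e : κ → ι) {f : (κ → Bool) → K} {d : ℕ} (hf : f ∈ Low K d) :
    (fun x : ι → Bool => f (fun k => x (e k))) ∈ Low K d := by
  classical
  unfold Low at hf
  induction hf using Submodule.span_induction with
  | mem f hf =>
    obtain ⟨I, hI, rfl⟩ := hf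
    have h : (fun x : ι → Bool => mon K I (fun k => x (e k))) = mon K (I.image e) := by
      funext x
      simp only [mon]
      rw [Finset.prod_ite_zero, Finset.prod_ite_zero]
      have : (∀ i ∈ I, x (e i) = true) ↔ (∀ i ∈ I.image e, x i = true) := by
        constructor
        · intro h i hi
          obtain ⟨j, hj, rfl⟩ := Finset.mem_image.mp hi
          exact h j hj
        · intro h i hi
          exact h _ (Finset.mem_image_of_mem e hi)
      by_cases h1 : ∀ i ∈ I, x (e i) = true
      · have h2 := this.mp h1
        simp only [if_pos h1, if_pos h2, Finset.prod_const_one]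
      · have h2 : ¬ ∀ i ∈ I.image e, x i = true := fun h => h1 (this.mpr h)
        simp only [if_neg h1, if_neg h2]
    rw [h]
    exact mon_mem_low ((Finset.card_image_le).trans hI)
  | zero => exact Submodule.zero_mem _
  | add a b _ _ ha hb => exact Submodule.add_mem _ ha hb
  | smul c a _ ha => exact Submodule.smul_mem _ c ha

/-- Extension of scalars. -/
theorem map_mem_low {L : Type*} [CommRing L] (φ : K →+* L) {f : (ι → Bool) → K} {d : ℕ}
    (hf : f ∈ Low K d) : (fun x => φ (f x)) ∈ Low L (ι := ι) d := by
  unfold Low at hf
  induction hf using Submodule.span_induction with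
  | mem f hf =>
    obtain ⟨I, hI, rfl⟩ := hf
    have h : (fun x : ι → Bool => φ (mon K I x)) = mon L I := by
      funext x
      simp only [mon, map_prod]
      refine Finset.prod_congr rfl fun i _ => ?_
      by_cases h : x i = true
      · simp [h]
      · simp [h]
    rw [h]
    exact mon_mem_low hI
  | zero =>
    have : (fun x : ι → Bool => φ ((0 : (ι → Bool) → K) x)) = 0 := by funext x; simp
    rw [this]; exact Submodule.zero_mem _
  | add a b _ _ ha hb =>
    have : (fun x : ι → Bool => φ ((a + b) x)) = (fun x => φ (a x)) + (fun x => φ (b x)) := by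
      funext x; simp
    rw [this]; exact Submodule.add_mem _ ha hb
  | smul c a _ ha =>
    have : (fun x : ι → Bool => φ ((c • a) x)) = φ c • (fun x => φ (a x)) := by
      funext x; simp
    rw [this]; exact Submodule.smul_mem _ _ ha

/-- In characteristic two a polynomial of degree less than the number of variables sums to zero
over the cube. -/
theorem sum_low_eq_zero [Fintype ι] [DecidableEq ι] [CharP K 2] {f : (ι → Bool) → K} {d : ℕ}
    (hf : f ∈ Low K d) (hd : d < Fintype.card ι) : ∑ x, f x = 0 := by
  unfold Low at hf
  induction hf using Submodule.span_induction with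
  | mem f hf =>
    obtain ⟨I, hI, rfl⟩ := hf
    simp only [Set.mem_ofPred_eq] at hI
    have h1 : ∃ j, j ∉ I := by
      by_contra hcon
      push Not at hcon
      have : I = univ := Finset.eq_univ_iff_forall.mpr hcon
      rw [this, Finset.card_univ] at hI
      omega
    obtain ⟨j, hj⟩ := h1
    refine Finset.sum_involution (fun x _ => Function.update x j (!x j)) ?_ ?_ ?_ ?_
    · intro x _
      have : mon K I (Function.update x j (!x j)) = mon K I x := by
        unfold mon
        refine Finset.prod_congr rfl fun i hi => ?_
        have : i ≠ j := fun h => hj (h ▸ hi)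
        rw [Function.update_of_ne this]
      rw [this]
      exact CharTwo.add_self_eq_zero _
    · intro x _ _ h
      have := congrFun h j
      simp at this
    · intro x _
      exact Finset.mem_univ _
    · intro x _
      funext i
      by_cases h : i = j
      · subst h; simp
      · simp [Function.update_of_ne h]
  | zero => simp
  | add a b _ _ ha hb => simp only [Pi.add_apply, Finset.sum_add_distrib, ha, hb, add_zero]
  | smul c a _ ha => simp only [Pi.smul_apply, smul_eq_mul, ← Finset.mul_sum, ha, mul_zero]

/-- Every function is a combination of the products `∏_{i∈I} a_i(x_i)` if `a_i` takes value `1` at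
`false` and value `w ≠ 1` at `true`. -/
theorem exists_char_expansion {L : Type*} [Field L] [Fintype ι] [DecidableEq ι] (w : L)
    (h1 : w ≠ 1) (f : (ι → Bool) → L) :
    ∃ c : Finset ι → L, ∀ x, f x = ∑ I, c I * ∏ i ∈ I, (if x i then w else 1) := by
  -- the delta functions are products of affine combinations of the `a_i`
  have hdelta : ∀ y : ι → Bool, ∃ c : Finset ι → L, ∀ x,
      (if x = y then (1 : L) else 0) = ∑ I, c I * ∏ i ∈ I, (if x i then w else 1) := by
    intro y
    have hw : w - 1 ≠ 0 := sub_ne_zero.mpr h1
    refine ⟨fun I => (∏ i ∈ I, (if y i then (w - 1)⁻¹ else -(w - 1)⁻¹)) *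
      ∏ i ∈ Iᶜ, (if y i then -(w - 1)⁻¹ else 1 + (w - 1)⁻¹), fun x => ?_⟩
    have key : (if x = y then (1 : L) else 0) =
        ∏ i, ((if y i then (w - 1)⁻¹ else -(w - 1)⁻¹) * (if x i then w else 1) +
          (if y i then -(w - 1)⁻¹ else 1 + (w - 1)⁻¹)) := by
      have hfac : ∀ i, ((if y i then (w - 1)⁻¹ else -(w - 1)⁻¹) * (if x i then w else 1) +
          (if y i then -(w - 1)⁻¹ else 1 + (w - 1)⁻¹)) = if x i = y i then 1 else 0 := by
        intro i
        have e1 : (w - 1)⁻¹ * w + -(w - 1)⁻¹ = 1 := by field_simp; ring
        cases hx : x i <;> cases hy : y i <;> simp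
        · have e2 : -(w - 1)⁻¹ * w + (1 + (w - 1)⁻¹) = 0 := by
            have := e1
            linear_combination -this
          simpa using e2
        · exact e1
      rw [Finset.prod_congr rfl fun i _ => hfac i, Finset.prod_ite_zero]
      by_cases h : x = y
      · subst h; simp
      · have : ¬ ∀ i ∈ (univ : Finset ι), x i = y i := fun hh => h (funext fun i => hh i (by simp))
        simp only [if_neg h, if_neg this]
    rw [key, Finset.prod_add]
    rw [Finset.powerset_univ]
    refine Finset.sum_congr rfl fun I _ => ?_
    beta_reduce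
    rw [Finset.prod_mul_distrib, Finset.compl_eq_univ_sdiff]
    ring
  choose c hc using hdelta
  refine ⟨fun I => ∑ y, f y * c y I, fun x => ?_⟩
  have h2 : f x = ∑ y, f y * (if x = y then (1 : L) else 0) := by
    simp
  rw [h2]
  simp_rw [hc _ x]
  simp_rw [Finset.mul_sum, Finset.sum_mul]
  rw [Finset.sum_comm]
  refine Finset.sum_congr rfl fun I _ => Finset.sum_congr rfl fun y _ => by ring

end P346Q
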