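import Mathlib

/-!
# P346Q: the window gadget
-/

namespace P346Q

open Finset

variable {K : Type} [Field K]

/-- the gadget as a function of the number of zeros -/
def tauN (a : ℕ → K) (D v : ℕ) : K := ∑ j ∈ range (D + 1), a j * (v.choose j : K)

/-- the gadget as a function of the coordinates -/
def tau [DecidableEq K] {m : ℕ} (a : ℕ → K) (D : ℕ) (y : Fin m → K) : K :=
  tauN a D (univ.filter fun k => y k = 0).card

/-- affine functions of `x` -/
def LabX (K ι : Type) [Field K] : Submodule K ((ι → K) → K) :=
  Submodule.span K ({1} ∪ Set.range fun (i : ι) (x : ι → K) => x i)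

end P346Q
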