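import Vale.Agent.P346Q.DecompDef
import Vale.Agent.P346Q.Low
import Vale.Agent.P346Q.TauDef

/-!
# P346Q: the sample space `(K^*)^ι × {0,1}^ι` and its filtration
-/

namespace P346Q

open Finset

/-- The sample space: multipliers `y` and bits `b`. -/
abbrev Om (K ι : Type) [Field K] : Type := (ι → Kˣ) × (ι → Bool)

/-- The point of `K^ι` given by multipliers and bits: `x_i = y_i b_i`. -/
def pt {K ι : Type} [Field K] (o : Om K ι) (i : ι) : K := if o.2 i then (o.1 i : K) else 0

/-- The filtration: functions whose restriction to each fiber `y` has degree at most `d` in the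
bits. -/
def omFilt (K ι : Type) [Field K] : Filt K (Om K ι → K) where
  L d := { carrier := {f | ∀ y, (fun b => f (y, b)) ∈ Low K (ι := ι) d}
           add_mem' := fun {a b} ha hb y => Submodule.add_mem _ (ha y) (hb y)
           zero_mem' := fun y => Submodule.zero_mem _
           smul_mem' := fun c a ha y => Submodule.smul_mem _ c (ha y) }
  mono := fun h f hf y => low_mono h (hf y)
  one_mem := fun y => one_mem_low 0
  mul_mem := fun hf hg y => mul_mem_low (hf y) (hg y)

theorem pt_mem {K ι : Type} [Field K] (i : ι) : (fun o : Om K ι => pt o i) ∈ (omFilt K ι).L 1 := by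
  intro y
  have h : (fun b : ι → Bool => pt (y, b) i) =
      (y i : K) • (fun b : ι → Bool => (if b i then (1 : K) else 0)) := by
    funext b
    cases hb : b i <;> simp [pt, hb]
  rw [h]
  exact Submodule.smul_mem _ _ (var_mem_low i)

end P346Q
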