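import Vale.Agent.P346.Def

/-!
# P346Q: decomposition of the top coefficient of a homogeneous circuit
-/

namespace P346Q

open MvPolynomial P346

/-- A multiplicative filtration of a `K`-algebra by subspaces. -/
structure Filt (K : Type) [Field K] (F : Type) [CommRing F] [Algebra K F] where
  L : ℕ → Submodule K F
  mono : ∀ {a b : ℕ}, a ≤ b → L a ≤ L b
  one_mem : (1 : F) ∈ L 0
  mul_mem : ∀ {a b : ℕ} {f g : F}, f ∈ L a → g ∈ L b → f * g ∈ L (a + b)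

/-- syntactic homogeneity with output degree `n` -/
def HomogDeg {K V : Type} (C : Circ K V) (n : ℕ) : Prop :=
  ∃ (d0 : Fin C.n0 → ℕ) (d1 : Fin C.n1 → ℕ) (d2 : Fin C.n2 → ℕ) (d3 : Fin C.n3 → ℕ)
    (d4 : Fin C.n4 → ℕ),
    (∀ i, (∃ a, C.leaf i = .inl a ∧ d0 i = 1) ∨ (∃ c, C.leaf i = .inr c ∧ d0 i = 0)) ∧
    (∀ i, ∀ p ∈ C.sum1 i, d0 p.2 = d1 i) ∧
    (∀ i, d2 i = ((C.prod2 i).map d1).sum) ∧
    (∀ i, ∀ p ∈ C.sum3 i, d2 p.2 = d3 i) ∧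
    (∀ i, d4 i = ((C.prod4 i).map d3).sum) ∧
    (∀ p ∈ C.out, d4 p.2 = n)

end P346Q
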