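import Vale.Agent.P346Q.DecompDef
import Vale.Agent.P346.Main

/-!
# P346Q: the degree of a homogeneous circuit
-/

namespace P346Q

open MvPolynomial P346

theorem imm_isHomogeneous (K : Type) [Field K] (n : ℕ) [NeZero n] :
    (IMM K n n).IsHomogeneous n := by
  have h : ∀ (L : List (Matrix (Fin n) (Fin n) (MvPolynomial (Fin n × Fin n × Fin n) K))),
      (∀ M ∈ L, ∀ a b, (M a b).IsHomogeneous 1) → ∀ a b, (L.prod a b).IsHomogeneous L.length := by
    intro L
    induction L with
    | nil =>
      intro _ a b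
      rw [List.prod_nil, Matrix.one_apply, List.length_nil]
      split_ifs
      · exact isHomogeneous_one _ _
      · exact isHomogeneous_zero _ _ _
    | cons M L ih =>
      intro hM a b
      rw [List.prod_cons, Matrix.mul_apply, List.length_cons, add_comm]
      refine IsHomogeneous.sum _ _ _ fun c _ => ?_
      exact (hM M (List.mem_cons_self ..) a c).mul
        (ih (fun N hN => hM N (List.mem_cons_of_mem _ hN)) c b)
  have h1 := h (List.ofFn fun k : Fin n =>
    (Matrix.of fun a b => MvPolynomial.X (k, a, b) :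
      Matrix (Fin n) (Fin n) (MvPolynomial (Fin n × Fin n × Fin n) K))) (by
    intro M hM a b
    rw [List.mem_ofFn] at hM
    obtain ⟨k, rfl⟩ := hM
    exact isHomogeneous_X _ _) 0 0
  rw [List.length_ofFn] at h1
  exact h1

theorem imm_ne_zero' (K : Type) [Field K] (n : ℕ) [NeZero n] : IMM K n n ≠ 0 := by
  intro h
  have h1 := aeval_IMM (K := K) (w := n) (d := n) (σ := Empty)
    (fun _ => (1 : Matrix (Fin n) (Fin n) (MvPolynomial Empty K)))
  rw [h, map_zero, List.ofFn_const, List.prod_replicate, one_pow, Matrix.one_apply_eq] at h1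
  exact zero_ne_one h1

/-- MODULE Deg: a homogeneous circuit for `IMM_{n,n}` has output degree `n`. -/
theorem homogDeg_of_imm {K : Type} [Field K] {n : ℕ} [NeZero n]
    (C : Circ K (Fin n × Fin n × Fin n)) (hC : C.Homog) (hp : C.poly = IMM K n n) :
    HomogDeg C n := by
  obtain ⟨d0, d1, d2, d3, d4, d5, h0, h1, h2, h3, h4, h5⟩ := hC
  have hlin : ∀ {ι : Type} (l : List (K × ι)) (u : ι → MvPolynomial (Fin n × Fin n × Fin n) K)
      (d : ι → ℕ) (D : ℕ), (∀ i, (u i).IsHomogeneous (d i)) → (∀ p ∈ l, d p.2 = D) →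
      ((l.map fun p => p.1 • u p.2).sum).IsHomogeneous D := by
    intro ι l u d D hu hl
    induction l with
    | nil => exact isHomogeneous_zero _ _ _
    | cons p l ih =>
      rw [List.map_cons, List.sum_cons]
      refine IsHomogeneous.add ?_ (ih fun p' hp' => hl p' (List.mem_cons_of_mem _ hp'))
      rw [MvPolynomial.smul_eq_C_mul, ← hl p (List.mem_cons_self ..)]
      have := (isHomogeneous_C (Fin n × Fin n × Fin n) p.1).mul (hu p.2)
      rwa [zero_add] at this
  have hpro : ∀ {ι : Type} (l : List ι) (u : ι → MvPolynomial (Fin n × Fin n × Fin n) K)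
      (d : ι → ℕ), (∀ i, (u i).IsHomogeneous (d i)) →
      ((l.map u).prod).IsHomogeneous (l.map d).sum := by
    intro ι l u d hu
    induction l with
    | nil => exact isHomogeneous_one _ _
    | cons p l ih =>
      rw [List.map_cons, List.prod_cons, List.map_cons, List.sum_cons]
      exact (hu p).mul ih
  have g0 : ∀ i, (C.v0 (X (R := K)) i).IsHomogeneous (d0 i) := by
    intro i
    unfold Circ.v0
    rcases h0 i with ⟨a, ha, hd⟩ | ⟨c, hc, hd⟩
    · rw [ha, hd]; exact isHomogeneous_X _ _
    · rw [hc, hd]; exact isHomogeneous_C _ _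
  have g1 : ∀ i, (C.v1 (X (R := K)) i).IsHomogeneous (d1 i) := fun i => hlin (C.sum1 i) _ d0 _ g0 (h1 i)
  have g2 : ∀ i, (C.v2 (X (R := K)) i).IsHomogeneous (d2 i) := fun i => by
    rw [h2 i]; exact hpro (C.prod2 i) _ d1 g1
  have g3 : ∀ i, (C.v3 (X (R := K)) i).IsHomogeneous (d3 i) := fun i => hlin (C.sum3 i) _ d2 _ g2 (h3 i)
  have g4 : ∀ i, (C.v4 (X (R := K)) i).IsHomogeneous (d4 i) := fun i => by
    rw [h4 i]; exact hpro (C.prod4 i) _ d3 g3
  have g5 : (C.poly).IsHomogeneous d5 := hlin C.out _ d4 _ g4 h5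
  have hd : d5 = n := by
    rw [hp] at g5
    exact g5.inj_right (imm_isHomogeneous K n) (imm_ne_zero' K n)
  exact ⟨d0, d1, d2, d3, d4, h0, h1, h2, h3, h4, fun p hp => (h5 p hp).trans hd⟩

end P346Q
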