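import Vale.Agent.P346Q.Key

/-!
# P346Q: the lower bound for finite fields with at least three elements
-/

namespace P346Q

open Finset P346 MvPolynomial

theorem imm_ne_zero (K : Type) [Field K] (n : ℕ) [NeZero n] : IMM K n n ≠ 0 := by
  intro h
  have h1 := aeval_IMM (K := K) (w := n) (d := n) (σ := Empty)
    (fun _ => (1 : Matrix (Fin n) (Fin n) (MvPolynomial Empty K)))
  rw [h, map_zero, List.ofFn_const, List.prod_replicate, one_pow, Matrix.one_apply_eq] at h1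
  exact zero_ne_one h1

theorem two_le_size {K : Type} [Field K] {n : ℕ} [NeZero n] (C : Circ K (Fin n × Fin n × Fin n))
    (hp : C.poly = IMM K n n) : 2 ≤ C.size := by
  by_contra hcon
  have h4 : C.n4 = 0 := by
    unfold Circ.size at hcon
    omega
  apply imm_ne_zero K n
  rw [← hp]
  have : C.out = [] := by
    rw [List.eq_nil_iff_forall_not_mem]
    intro p _
    exact (Fin.cast h4 p.2).elim0
  rw [Circ.poly, Circ.val, this]
  simp

/-- the error terms -/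
theorem err_le (q k t l W J : ℕ) (a : ℝ) (hq : 3 ≤ q) (hk : 1 ≤ k) (ht : t = 8 * (q - 1) * k)
    (hl : l = 4 * k) (ha : 1 ≤ a) (hW : (W : ℝ) = 5 * a * k) (hJ0 : 1 ≤ J)
    (hJ : (J : ℝ) ≤ 6 * a ^ 2 * k) :
    ((1 - 1 / (2 * (q : ℝ) - 2)) ^ t + (1 / (q : ℝ)) ^ l + 2 * ((q : ℝ) - 1) *
        Real.exp (-(W : ℝ) ^ 2 / (J : ℝ))) * 8 ^ k ≤ 2 * q * Real.exp (-(k : ℝ)) := by
  have hqR : (3 : ℝ) ≤ q := by exact_mod_cast hq
  have hkR : (1 : ℝ) ≤ k := by exact_mod_cast hk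
  have hJR : (0 : ℝ) < J := by exact_mod_cast hJ0
  have h1 : (1 - 1 / (2 * (q : ℝ) - 2)) ^ t ≤ Real.exp (-(4 * k)) := by
    have h2 : 0 ≤ 1 - 1 / (2 * (q : ℝ) - 2) := by
      rw [sub_nonneg, div_le_one (by linarith)]
      linarith
    have h3 : 1 - 1 / (2 * (q : ℝ) - 2) ≤ Real.exp (-(1 / (2 * (q : ℝ) - 2))) := by
      have := Real.add_one_le_exp (-(1 / (2 * (q : ℝ) - 2)))
      linarith
    calc (1 - 1 / (2 * (q : ℝ) - 2)) ^ t ≤ (Real.exp (-(1 / (2 * (q : ℝ) - 2)))) ^ t :=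
          pow_le_pow_left₀ h2 h3 t
      _ = Real.exp (-(4 * k)) := by
          rw [← Real.exp_nat_mul, ht]
          congr 1
          have h4 : ((8 * (q - 1) * k : ℕ) : ℝ) = 8 * ((q : ℝ) - 1) * k := by
            push_cast [Nat.cast_sub (show 1 ≤ q by omega)]
            ring
          have h5 : ((q : ℝ) - 1) ≠ 0 := by linarith
          rw [h4, show (2 * (q : ℝ) - 2) = 2 * ((q : ℝ) - 1) by ring]
          field_simp
          ring
  have h2 : (1 / (q : ℝ)) ^ l ≤ Real.exp (-(4 * k)) := by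
    have h3 : 1 / (q : ℝ) ≤ Real.exp (-1) := by
      rw [Real.exp_neg, one_div]
      apply inv_anti₀ (Real.exp_pos _)
      have := Real.exp_one_lt_d9
      linarith
    calc (1 / (q : ℝ)) ^ l ≤ (Real.exp (-1)) ^ l := pow_le_pow_left₀ (by positivity) h3 l
      _ = Real.exp (-(4 * k)) := by
          rw [← Real.exp_nat_mul, hl]
          congr 1
          push_cast
          ring
  have h3 : Real.exp (-(W : ℝ) ^ 2 / (J : ℝ)) ≤ Real.exp (-(4 * k)) := by
    apply Real.exp_le_exp.mpr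
    rw [div_le_iff₀ hJR, hW]
    have h4 : (4 * (k : ℝ)) * J ≤ 4 * k * (6 * a ^ 2 * k) :=
      mul_le_mul_of_nonneg_left hJ (by positivity)
    nlinarith [sq_nonneg (a * k)]
  have h4 : (8 : ℝ) ^ k ≤ Real.exp (3 * k) := by
    have h5 : (8 : ℝ) ≤ Real.exp 3 := by
      have h6 : Real.exp 3 = Real.exp 1 ^ 3 := by
        rw [← Real.exp_nat_mul]; norm_num
      have h7 : (2 : ℝ) ≤ Real.exp 1 := by
        have := Real.exp_one_gt_d9
        linarith
      rw [h6]
      calc (8 : ℝ) = 2 ^ 3 := by norm_num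
        _ ≤ _ := pow_le_pow_left₀ (by norm_num) h7 3
    calc (8 : ℝ) ^ k ≤ (Real.exp 3) ^ k := pow_le_pow_left₀ (by norm_num) h5 k
      _ = Real.exp (3 * k) := by rw [← Real.exp_nat_mul, mul_comm]
  calc ((1 - 1 / (2 * (q : ℝ) - 2)) ^ t + (1 / (q : ℝ)) ^ l + 2 * ((q : ℝ) - 1) *
        Real.exp (-(W : ℝ) ^ 2 / (J : ℝ))) * 8 ^ k
      ≤ (Real.exp (-(4 * k)) + Real.exp (-(4 * k)) + 2 * ((q : ℝ) - 1) * Real.exp (-(4 * k))) *
          Real.exp (3 * k) := by
        apply mul_le_mul _ h4 (by positivity)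
        · have : 0 ≤ 2 * ((q : ℝ) - 1) := by linarith
          positivity
        · have : 0 ≤ 2 * ((q : ℝ) - 1) := by linarith
          have := mul_le_mul_of_nonneg_left h3 this
          linarith
    _ = 2 * q * (Real.exp (-(4 * k)) * Real.exp (3 * k)) := by ring
    _ = 2 * q * Real.exp (-(k : ℝ)) := by
        rw [← Real.exp_add]
        congr 2
        ring

/-- the choice of the parameters -/
theorem size_ge_exp {K : Type} [Field K] [Fintype K] [DecidableEq K] (hq : 3 ≤ Fintype.card K)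
    {n : ℕ} [NeZero n] (C : Circ K (Fin n × Fin n × Fin n)) (hC : C.Homog)
    (hp : C.poly = IMM K n n) (Q G a k : ℕ) (hQ : Q = Fintype.card K - 1) (hG : G = 241 * Q ^ 4)
    (ha : a = 16 * G ^ 3 * Q) (hk : 1 ≤ k) (hn1 : 10 * a ^ 2 * k ^ 2 ≤ n)
    (hn2 : n ≤ 40 * a ^ 2 * k ^ 2) :
    Real.exp k ≤ 2 * Fintype.card K * C.size := by
  have hQ2 : 2 ≤ Q := by omega
  have hQ0 : 0 < Q := by omega
  have hG1 : 1 ≤ G := by
    rw [hG]
    exact Nat.mul_pos (by norm_num) (Nat.pow_pos hQ0)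
  have hGQ : Q ≤ G := by
    rw [hG]
    have : Q * 1 ≤ Q * Q ^ 3 := Nat.mul_le_mul_left _ (Nat.one_le_pow _ _ hQ0)
    nlinarith
  have hG3 : G ≤ G ^ 3 := Nat.le_self_pow (by norm_num) G
  have ha8 : 8 * Q ^ 2 ≤ a := by
    rw [ha]
    have : Q * Q ≤ G ^ 3 * Q := Nat.mul_le_mul_right _ (hGQ.trans hG3)
    nlinarith
  have ha1 : 1 ≤ a := by
    have : 1 ≤ Q ^ 2 := Nat.one_le_pow _ _ hQ0
    omega
  have ha2k2 : 1 ≤ a ^ 2 * k ^ 2 := Nat.mul_pos (Nat.pow_pos ha1) (Nat.pow_pos hk)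
  have hJ1 : n / (Q * (8 * Q * k)) + 1 ≤ 6 * a ^ 2 * k := by
    have h1 : n / (Q * (8 * Q * k)) ≤ 5 * a ^ 2 * k := by
      apply Nat.div_le_of_le_mul
      have : 1 ≤ Q ^ 2 := Nat.one_le_pow _ _ hQ0
      calc n ≤ 40 * a ^ 2 * k ^ 2 := hn2
        _ = 40 * a ^ 2 * k ^ 2 * 1 := (mul_one _).symm
        _ ≤ 40 * a ^ 2 * k ^ 2 * Q ^ 2 := Nat.mul_le_mul_left _ this
        _ = Q * (8 * Q * k) * (5 * a ^ 2 * k) := by ring
    have h2 : 1 ≤ a ^ 2 * k := Nat.mul_pos (Nat.pow_pos ha1) hk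
    nlinarith
  have hkey := key hq C hC hp (2 * G) (a * k) (G * (a * k)) k (8 * Q * k) (4 * k) (5 * a * k)
    (by omega) (Nat.mul_pos ha1 hk) (le_of_eq (by ring))
    (Nat.mul_pos (Nat.mul_pos (by norm_num) hQ0) hk)
    (by
      rw [← hQ]
      have h1 : 2 * (5 * a * k) ≤ n / (Q * (8 * Q * k)) := by
        rw [Nat.le_div_iff_mul_le (by positivity)]
        calc 2 * (5 * a * k) * (Q * (8 * Q * k)) = 10 * a * k ^ 2 * (8 * Q ^ 2) := by ring
          _ ≤ 10 * a * k ^ 2 * a := Nat.mul_le_mul_left _ ha8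
          _ = 10 * a ^ 2 * k ^ 2 := by ring
          _ ≤ n := hn1
      omega)
    (by nlinarith)
    (by
      rw [← hQ]
      have h1 : k * (2 * G) ^ 2 * (Q * (8 * (2 * G) * (a * k) + 1)) =
          4 * a * k ^ 2 * (16 * G ^ 3 * Q) + 4 * G ^ 2 * Q * k := by ring
      rw [h1, ← ha]
      have h2 : 4 * G ^ 2 * Q * k ≤ a ^ 2 * k ^ 2 := by
        have h3 : 4 * G ^ 2 * Q ≤ a := by
          rw [ha]
          have : G ^ 2 ≤ G ^ 3 := Nat.pow_le_pow_right hG1 (by norm_num)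
          calc 4 * G ^ 2 * Q ≤ 4 * G ^ 3 * Q := by
                apply Nat.mul_le_mul_right; apply Nat.mul_le_mul_left; exact this
            _ ≤ 16 * G ^ 3 * Q := by
                apply Nat.mul_le_mul_right; omega
        have h4 : a ≤ a ^ 2 := Nat.le_self_pow (by norm_num) a
        have h5 : k ≤ k ^ 2 := Nat.le_self_pow (by norm_num) k
        exact Nat.mul_le_mul (h3.trans h4) h5
      nlinarith)
    (by
      rw [← hQ]
      have h1 : 4 * k + 2 * (5 * a * k) + 1 ≤ 15 * (a * k) := by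
        have : k ≤ a * k := Nat.le_mul_of_pos_left k ha1
        have : 1 ≤ a * k := Nat.mul_pos ha1 hk
        nlinarith
      calc Q ^ 2 * (4 * k + 2 * (5 * a * k) + 1) * (2 * (Q * (8 * Q * k)))
          ≤ Q ^ 2 * (15 * (a * k)) * (2 * (Q * (8 * Q * k))) := by
            apply Nat.mul_le_mul_right; apply Nat.mul_le_mul_left; exact h1
        _ = 240 * Q ^ 4 * (k * (a * k)) := by ring
        _ < 241 * Q ^ 4 * (k * (a * k)) := by
            apply Nat.mul_lt_mul_of_pos_right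
            · have : 1 ≤ Q ^ 4 := Nat.one_le_pow _ _ hQ0
              omega
            · exact Nat.mul_pos hk (Nat.mul_pos ha1 hk)
        _ = k * (G * (a * k)) := by rw [hG]; ring)
  rw [← hQ] at hkey
  have herr := err_le (Fintype.card K) k (8 * Q * k) (4 * k) (5 * a * k)
    (n / (Q * (8 * Q * k)) + 1) a hq hk (by rw [hQ]) rfl (by exact_mod_cast ha1)
    (by push_cast; ring) (Nat.le_add_left _ _) (by exact_mod_cast hJ1)
  have h1 : 1 ≤ (C.size : ℝ) * (2 * Fintype.card K * Real.exp (-(k : ℝ))) := by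
    refine hkey.trans ?_
    rw [mul_assoc]
    exact mul_le_mul_of_nonneg_left herr (Nat.cast_nonneg _)
  have h2 : Real.exp k * Real.exp (-(k : ℝ)) = 1 := by
    rw [← Real.exp_add]; simp
  calc Real.exp k = Real.exp k * 1 := (mul_one _).symm
    _ ≤ Real.exp k * ((C.size : ℝ) * (2 * Fintype.card K * Real.exp (-(k : ℝ)))) :=
        mul_le_mul_of_nonneg_left h1 (Real.exp_pos _).le
    _ = 2 * Fintype.card K * C.size * (Real.exp k * Real.exp (-(k : ℝ))) := by ring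
    _ = _ := by rw [h2, mul_one]

/-- The lower bound for finite fields with at least three elements. -/
theorem lower_of_three_le {K : Type} [Field K] [Fintype K] (hq : 3 ≤ Fintype.card K) :
    ∃ c : ℝ, 0 < c ∧ ∀ (n : ℕ) [NeZero n] (C : Circ K (Fin n × Fin n × Fin n)), C.Homog →
      C.poly = IMM K n n → (2 : ℝ) ^ (c * √(n : ℝ)) ≤ C.size := by
  classical
  obtain ⟨Q, hQ⟩ : ∃ Q, Q = Fintype.card K - 1 := ⟨_, rfl⟩
  obtain ⟨G, hG⟩ : ∃ G, G = 241 * Q ^ 4 := ⟨_, rfl⟩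
  obtain ⟨a, ha⟩ : ∃ a, a = 16 * G ^ 3 * Q := ⟨_, rfl⟩
  have hQ0 : 0 < Q := by omega
  have ha0 : 0 < a := by rw [ha, hG]; positivity
  -- `exp (k / 2) ≥ 2 q` for `k ≥ 4 q`
  set q := Fintype.card K with hqdef
  have hqR : (3 : ℝ) ≤ q := by exact_mod_cast hq
  have haR : (1 : ℝ) ≤ a := by exact_mod_cast ha0
  refine ⟨1 / (4 * a * (4 * q + 1) * 4), by positivity, fun n _ C hC hp => ?_⟩
  set k := Nat.sqrt (n / (10 * a ^ 2)) with hk
  have hB : 0 < 10 * a ^ 2 := by positivity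
  have hk1 : 10 * a ^ 2 * k ^ 2 ≤ n := by
    have h1 : k ^ 2 ≤ n / (10 * a ^ 2) := Nat.sqrt_le' _
    calc 10 * a ^ 2 * k ^ 2 ≤ 10 * a ^ 2 * (n / (10 * a ^ 2)) := Nat.mul_le_mul_left _ h1
      _ ≤ n := Nat.mul_div_le _ _
  have hk2 : n < 10 * a ^ 2 * (k + 1) ^ 2 := by
    have h1 : n / (10 * a ^ 2) < (k + 1) ^ 2 := Nat.lt_succ_sqrt' _
    rwa [Nat.div_lt_iff_lt_mul hB, mul_comm] at h1
  have hsqrt : √(n : ℝ) ≤ 4 * a * (k + 1) := by
    rw [Real.sqrt_le_left (by positivity)]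
    have h1 : (n : ℝ) < 10 * a ^ 2 * (k + 1) ^ 2 := by exact_mod_cast hk2
    nlinarith [sq_nonneg ((a : ℝ) * (k + 1))]
  have hsize2 := two_le_size C hp
  have hsizeR : (2 : ℝ) ≤ C.size := by exact_mod_cast hsize2
  by_cases hkq : k < 4 * q
  · -- small `n`
    have h1 : (1 / (4 * a * (4 * q + 1) * 4)) * √(n : ℝ) ≤ 1 := by
      have h2 : (k : ℝ) + 1 ≤ 4 * q + 1 := by
        have : (k : ℝ) < 4 * q := by exact_mod_cast hkq
        linarith
      rw [div_mul_eq_mul_div, one_mul, div_le_one (by positivity)]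
      calc √(n : ℝ) ≤ 4 * a * (k + 1) := hsqrt
        _ ≤ 4 * a * (4 * q + 1) := mul_le_mul_of_nonneg_left h2 (by positivity)
        _ ≤ 4 * a * (4 * q + 1) * 4 := by
            have : (0 : ℝ) ≤ 4 * a * (4 * q + 1) := by positivity
            linarith
    calc (2 : ℝ) ^ ((1 / (4 * a * (4 * q + 1) * 4)) * √(n : ℝ)) ≤ (2 : ℝ) ^ (1 : ℝ) :=
          Real.rpow_le_rpow_of_exponent_le (by norm_num) h1
      _ = 2 := Real.rpow_one 2
      _ ≤ _ := hsizeR
  · push Not at hkq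
    have hk1' : 1 ≤ k := by omega
    have h40 : n ≤ 40 * a ^ 2 * k ^ 2 := by
      have h1 : (k + 1) ^ 2 ≤ 4 * k ^ 2 := by nlinarith
      calc n ≤ 10 * a ^ 2 * (k + 1) ^ 2 := hk2.le
        _ ≤ 10 * a ^ 2 * (4 * k ^ 2) := Nat.mul_le_mul_left _ h1
        _ = _ := by ring
    have hexp := size_ge_exp hq C hC hp Q G a k hQ hG ha hk1' hk1 h40
    have h2q : 2 * (q : ℝ) ≤ Real.exp (k / 2) := by
      have h1 := Real.add_one_le_exp ((k : ℝ) / 2)
      have h2 : (4 * q : ℝ) ≤ k := by exact_mod_cast hkq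
      linarith
    have h3 : Real.exp (k / 2) ≤ C.size := by
      have h4 : Real.exp k = Real.exp (k / 2) * Real.exp (k / 2) := by
        rw [← Real.exp_add]; congr 1; ring
      have h5 : Real.exp (k / 2) * Real.exp (k / 2) ≤ Real.exp (k / 2) * C.size := by
        rw [← h4]
        exact hexp.trans (mul_le_mul_of_nonneg_right h2q (by positivity))
      exact le_of_mul_le_mul_left h5 (Real.exp_pos _)
    refine le_trans ?_ h3
    rw [Real.rpow_def_of_pos (by norm_num)]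
    apply Real.exp_le_exp.mpr
    have hlog : Real.log 2 ≤ 1 := by
      have := Real.log_two_lt_d9
      linarith
    have hlog0 : 0 ≤ Real.log 2 := Real.log_nonneg (by norm_num)
    have h6 : (1 / (4 * a * (4 * q + 1) * 4)) * √(n : ℝ) ≤ k / 2 := by
      rw [div_mul_eq_mul_div, one_mul, div_le_iff₀ (by positivity)]
      have hkR : (1 : ℝ) ≤ k := by exact_mod_cast hk1'
      calc √(n : ℝ) ≤ 4 * a * (k + 1) := hsqrt
        _ ≤ 4 * a * (2 * k) := mul_le_mul_of_nonneg_left (by linarith) (by positivity)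
        _ ≤ k / 2 * (4 * a * (4 * q + 1) * 4) := by
            have : (0 : ℝ) ≤ a * k := by positivity
            nlinarith
    calc Real.log 2 * ((1 / (4 * a * (4 * q + 1) * 4)) * √(n : ℝ))
        ≤ 1 * ((1 / (4 * a * (4 * q + 1) * 4)) * √(n : ℝ)) :=
          mul_le_mul_of_nonneg_right hlog (by positivity)
      _ = (1 / (4 * a * (4 * q + 1) * 4)) * √(n : ℝ) := one_mul _
      _ ≤ k / 2 := h6

end P346Q
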