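import Vale.Agent.P346Q.CubePt

/-!
# P346Q: affine forms on the sample space
-/

namespace P346Q

open Finset

section FiltLemmas

variable {K : Type} [Field K] {F : Type} [CommRing F] [Algebra K F]

theorem Filt.one_mem' (Φ : Filt K F) (d : ℕ) : (1 : F) ∈ Φ.L d :=
  Φ.mono (Nat.zero_le d) Φ.one_mem

theorem Filt.const_mem (Φ : Filt K F) (c : K) (d : ℕ) : c • (1 : F) ∈ Φ.L d :=
  Submodule.smul_mem _ _ (Φ.one_mem' d)

theorem Filt.pow_mem (Φ : Filt K F) {f : F} {d : ℕ} (hf : f ∈ Φ.L d) (m : ℕ) :
    f ^ m ∈ Φ.L (m * d) := by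
  induction m with
  | zero => simpa using Φ.one_mem
  | succ m ih =>
    rw [pow_succ, Nat.succ_mul]
    exact Φ.mul_mem ih hf

theorem Filt.prod_mem (Φ : Filt K F) {ι : Type} (s : Finset ι) (f : ι → F) (d : ι → ℕ)
    (hf : ∀ i ∈ s, f i ∈ Φ.L (d i)) : ∏ i ∈ s, f i ∈ Φ.L (∑ i ∈ s, d i) := by
  classical
  induction s using Finset.induction_on with
  | empty => simpa using Φ.one_mem
  | insert a s ha ih =>
    rw [Finset.prod_insert ha, Finset.sum_insert ha]
    exact Φ.mul_mem (hf a (Finset.mem_insert_self a s))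
      (ih fun i hi => hf i (Finset.mem_insert_of_mem hi))

end FiltLemmas

/-- MODULE Forms2 (1): a function of `r` elements of degree one has degree at most `(q-1) r`. -/
theorem filt_comp {K : Type} [Field K] [Fintype K] {Ω : Type} (Φ : Filt K (Ω → K)) {r : ℕ}
    (l : Fin r → Ω → K) (hl : ∀ i, l i ∈ Φ.L 1) (G : (Fin r → K) → K) :
    (fun o => G (fun i => l i o)) ∈ Φ.L ((Fintype.card K - 1) * r) := by
  classical
  have hq : 1 ≤ Fintype.card K - 1 := by
    have := Fintype.one_lt_card (α := K)
    omega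
  have e : (fun o => G (fun i => l i o)) =
      ∑ a : Fin r → K, G a • ∏ i, (1 - (l i - a i • (1 : Ω → K)) ^ (Fintype.card K - 1)) := by
    funext o
    rw [Finset.sum_apply]
    have h1 : ∀ a : Fin r → K,
        (G a • ∏ i, (1 - (l i - a i • (1 : Ω → K)) ^ (Fintype.card K - 1))) o =
        if a = (fun i => l i o) then G a else 0 := by
      intro a
      rw [Pi.smul_apply, Finset.prod_apply, smul_eq_mul]
      by_cases h : a = fun i => l i o
      · rw [if_pos h]
        have h2 : ∀ i, (1 - (l i - a i • (1 : Ω → K)) ^ (Fintype.card K - 1)) o = 1 := by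
          intro i
          have h3 : a i = l i o := congrFun h i
          simp only [Pi.sub_apply, Pi.one_apply, Pi.pow_apply, Pi.smul_apply, smul_eq_mul,
            mul_one, h3, sub_self]
          rw [zero_pow (by omega), sub_zero]
        rw [Finset.prod_eq_one fun i _ => h2 i, mul_one]
      · rw [if_neg h]
        have h2 : ∃ i, a i ≠ l i o := by
          by_contra h3
          push Not at h3
          exact h (funext h3)
        obtain ⟨i, hi⟩ := h2
        rw [Finset.prod_eq_zero (Finset.mem_univ i), mul_zero]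
        simp only [Pi.sub_apply, Pi.one_apply, Pi.pow_apply, Pi.smul_apply, smul_eq_mul,
          mul_one]
        rw [FiniteField.pow_card_sub_one_eq_one _ (sub_ne_zero.mpr (Ne.symm hi)), sub_self]
    simp only [h1]
    rw [Finset.sum_ite_eq' Finset.univ (fun i => l i o) (fun a => G a)]
    simp
  rw [e]
  refine Submodule.sum_mem _ fun a _ => Submodule.smul_mem _ _ ?_
  have h2 := Φ.prod_mem (Finset.univ : Finset (Fin r))
    (fun i => 1 - (l i - a i • (1 : Ω → K)) ^ (Fintype.card K - 1))
    (fun _ => Fintype.card K - 1) (fun i _ => ?_)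
  · rw [Finset.sum_const, Finset.card_univ, Fintype.card_fin, smul_eq_mul, mul_comm] at h2
    exact h2
  · refine Submodule.sub_mem _ (Φ.one_mem' _) ?_
    have h3 := Φ.pow_mem (Submodule.sub_mem _ (hl i) (Φ.const_mem (a i) 1))
      (Fintype.card K - 1)
    rw [mul_one] at h3
    exact h3

section Count

variable {K : Type} [Field K] [Fintype K] [DecidableEq K]

/-- number of sample points where all forms are nonzero -/
noncomputable def fcnt {τ : Type} [Fintype τ] {n : ℕ} (l : τ → Fin n → K) (c : τ → K) : ℝ :=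
  ∑ o : Om K (Fin n), if ∀ i, ∑ k, l i k * pt o k + c i ≠ 0 then 1 else 0

theorem fcnt_sum_om {n : ℕ} (g : Om K (Fin (n + 1)) → ℝ) :
    ∑ o, g o = ∑ u : Kˣ, ∑ b : Bool, ∑ o : Om K (Fin n), g (Fin.cons u o.1, Fin.cons b o.2) := by
  rw [Fintype.sum_prod_type]
  rw [← (Fin.consEquiv (fun _ : Fin (n + 1) => Kˣ)).sum_comp, Fintype.sum_prod_type]
  refine Finset.sum_congr rfl fun u _ => ?_
  have h1 : ∀ y : Fin n → Kˣ, (∑ z : Fin (n + 1) → Bool,
      g ((Fin.consEquiv (fun _ : Fin (n + 1) => Kˣ)) (u, y), z)) =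
      ∑ b : Bool, ∑ z : Fin n → Bool, g (Fin.cons u y, Fin.cons b z) := by
    intro y
    rw [← (Fin.consEquiv (fun _ : Fin (n + 1) => Bool)).sum_comp, Fintype.sum_prod_type]
    rfl
  simp only [h1]
  rw [Finset.sum_comm]
  refine Finset.sum_congr rfl fun b _ => ?_
  rw [Fintype.sum_prod_type]

theorem fcnt_sum_field (h : K → ℝ) : ∑ v, h v = h 0 + ∑ u : Kˣ, h u := by
  have h1 : ∑ u : Kˣ, h u = ∑ v ∈ Finset.univ.erase (0 : K), h v := by
    refine Finset.sum_bij (fun u _ => (u : K)) ?_ ?_ ?_ ?_
    · intro u _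
      exact Finset.mem_erase.mpr ⟨u.ne_zero, Finset.mem_univ _⟩
    · intro u _ u' _ h2
      exact Units.ext h2
    · intro v hv
      exact ⟨Units.mk0 v (Finset.mem_erase.mp hv).1, Finset.mem_univ _, rfl⟩
    · intro u _
      rfl
  rw [h1]
  exact (Finset.add_sum_erase _ _ (Finset.mem_univ 0)).symm

theorem fcnt_succ {τ : Type} [Fintype τ] {n : ℕ} (l : τ → Fin (n + 1) → K) (c : τ → K) :
    fcnt l c = ((Fintype.card K : ℝ) - 2) * fcnt (fun i k => l i k.succ) c +
      ∑ v : K, fcnt (fun i k => l i k.succ) (fun i => c i + l i 0 * v) := by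
  have h1 : ∀ (u : Kˣ) (b : Bool) (o : Om K (Fin n)),
      (if ∀ i, ∑ k, l i k * pt ((Fin.cons u o.1, Fin.cons b o.2) : Om K (Fin (n + 1))) k
        + c i ≠ 0 then (1 : ℝ) else 0) =
      if ∀ i, ∑ k : Fin n, l i k.succ * pt o k + (c i + l i 0 * (if b then (u : K) else 0)) ≠ 0
        then 1 else 0 := by
    intro u b o
    have e : ∀ i, ∑ k, l i k * pt ((Fin.cons u o.1, Fin.cons b o.2) : Om K (Fin (n + 1))) k
        + c i = ∑ k : Fin n, l i k.succ * pt o k +
          (c i + l i 0 * (if b then (u : K) else 0)) := by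
      intro i
      rw [Fin.sum_univ_succ]
      simp only [pt, Fin.cons_zero, Fin.cons_succ]
      ring
    simp only [e]
  unfold fcnt
  rw [fcnt_sum_om]
  simp only [h1, Fintype.sum_bool, if_true, Bool.false_eq_true, if_false, mul_zero, add_zero]
  rw [Finset.sum_add_distrib, fcnt_sum_field (fun v => ∑ o : Om K (Fin n),
    if ∀ i, ∑ k : Fin n, l i k.succ * pt o k + (c i + l i 0 * v) ≠ 0 then (1 : ℝ) else 0)]
  simp only [mul_zero, add_zero, Finset.sum_const, Finset.card_univ, nsmul_eq_mul,
    Fintype.card_units]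
  have hq : 1 ≤ Fintype.card K := Fintype.card_pos
  push_cast [Nat.cast_sub hq]
  ring

theorem fcnt_nonneg {τ : Type} [Fintype τ] {n : ℕ} (l : τ → Fin n → K) (c : τ → K) :
    0 ≤ fcnt l c := by
  unfold fcnt
  refine Finset.sum_nonneg fun o _ => ?_
  split_ifs <;> norm_num

theorem fcnt_le_card {τ : Type} [Fintype τ] {n : ℕ} (l : τ → Fin n → K) (c : τ → K) :
    fcnt l c ≤ Fintype.card (Om K (Fin n)) := by
  unfold fcnt
  refine (Finset.sum_le_sum (g := fun _ => (1 : ℝ)) fun o _ => ?_).trans (le_of_eq ?_)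
  · split_ifs <;> norm_num
  · simp

/-- linear change of the first coordinate -/
theorem fcnt_sum_le {τ : Type} [Fintype τ] {n : ℕ} (l : τ → Fin (n + 1) → K) (c : τ → K)
    (i0 : τ) (h0 : l i0 0 ≠ 0) :
    ∑ v : K, fcnt (fun i k => l i k.succ) (fun i => c i + l i 0 * v) ≤
      ∑ s : Kˣ, fcnt (fun i k => l i k.succ - l i 0 / l i0 0 * l i0 k.succ)
        (fun i => c i + l i 0 / l i0 0 * ((s : K) - c i0)) := by
  unfold fcnt
  rw [Finset.sum_comm, Finset.sum_comm (s := (Finset.univ : Finset Kˣ))]
  refine Finset.sum_le_sum fun o _ => ?_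
  -- substitute the value of the form `i0`
  set w : K := ∑ k : Fin n, l i0 k.succ * pt o k with hw
  have e1 : (∑ v : K, if ∀ i, ∑ k : Fin n, l i k.succ * pt o k + (c i + l i 0 * v) ≠ 0
      then (1 : ℝ) else 0) =
      ∑ s : K, if ∀ i, ∑ k : Fin n, l i k.succ * pt o k +
        (c i + l i 0 * ((s - w - c i0) / l i0 0)) ≠ 0 then (1 : ℝ) else 0 := by
    symm
    refine Fintype.sum_equiv ((Equiv.subRight (w + c i0)).trans (Equiv.divRight₀ (l i0 0) h0))
      _ _ ?_
    intro s
    simp only [Equiv.trans_apply, Equiv.subRight_apply, Equiv.divRight₀_apply]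
    have e2 : s - w - c i0 = s - (w + c i0) := by ring
    simp only [e2]
  rw [e1, fcnt_sum_field]
  have e3 : (if ∀ i, ∑ k : Fin n, l i k.succ * pt o k +
        (c i + l i 0 * (((0 : K) - w - c i0) / l i0 0)) ≠ 0 then (1 : ℝ) else 0) = 0 := by
    rw [if_neg]
    intro h
    apply h i0
    rw [← hw]
    field_simp
    ring
  rw [e3, zero_add]
  refine Finset.sum_le_sum fun s _ => ?_
  by_cases h : ∀ i, ∑ k : Fin n, l i k.succ * pt o k +
        (c i + l i 0 * (((s : K) - w - c i0) / l i0 0)) ≠ 0
  · rw [if_pos h, if_pos]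
    intro i
    have e4 : ∑ k : Fin n, (l i k.succ - l i 0 / l i0 0 * l i0 k.succ) * pt o k +
        (c i + l i 0 / l i0 0 * ((s : K) - c i0)) =
        ∑ k : Fin n, l i k.succ * pt o k +
          (c i + l i 0 * (((s : K) - w - c i0) / l i0 0)) := by
      simp only [sub_mul, Finset.sum_sub_distrib, mul_assoc, ← Finset.mul_sum]
      rw [← hw]
      ring
    rw [e4]
    exact h i
  · rw [if_neg h]
    split_ifs <;> norm_num

theorem fcnt_finrank_map {n : ℕ} (S : Submodule K (Fin (n + 1) → K))
    (f : (Fin (n + 1) → K) →ₗ[K] (Fin n → K)) (hf : ∀ x, f x = 0 → x 0 = 0 → x = 0) :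
    Module.finrank K S ≤ Module.finrank K (S.map f) + 1 := by
  have h1 := LinearMap.finrank_range_add_finrank_ker (f.domRestrict S)
  have h2 : LinearMap.range (f.domRestrict S) = S.map f := LinearMap.range_domRestrict _ _
  rw [h2] at h1
  have h3 : Module.finrank K (LinearMap.ker (f.domRestrict S)) ≤ 1 := by
    have h4 : Module.finrank K (LinearMap.ker (f.domRestrict S)) ≤ Module.finrank K K := by
      refine LinearMap.finrank_le_finrank_of_injective
        (f := (LinearMap.proj (0 : Fin (n + 1)) : (Fin (n + 1) → K) →ₗ[K] K) ∘ₗ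
          S.subtype ∘ₗ (LinearMap.ker (f.domRestrict S)).subtype) ?_
      intro m m' hm
      have h5 : f (m.1.1 - m'.1.1) = 0 := by
        have h7 : f m.1.1 = 0 := m.2
        have h8 : f m'.1.1 = 0 := m'.2
        rw [map_sub, h7, h8, sub_zero]
      have h6 : (m.1.1 - m'.1.1) 0 = 0 := by
        have h7 : m.1.1 0 = m'.1.1 0 := hm
        rw [Pi.sub_apply, h7, sub_self]
      exact Subtype.ext (Subtype.ext (sub_eq_zero.mp (hf _ h5 h6)))
    rwa [Module.finrank_self] at h4
  omega

/-- subtract the multiple of `a` killing the first coordinate, and forget the first coordinate -/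
noncomputable def fmap {n : ℕ} (a : Fin n → K) (b : K) :
    (Fin (n + 1) → K) →ₗ[K] (Fin n → K) where
  toFun x k := x k.succ - x 0 / b * a k
  map_add' x y := by
    funext k
    simp only [Pi.add_apply]
    ring
  map_smul' c x := by
    funext k
    simp only [Pi.smul_apply, smul_eq_mul, RingHom.id_apply]
    ring

theorem fmap_inj {n : ℕ} (a : Fin n → K) (b : K) (x : Fin (n + 1) → K) (h : fmap a b x = 0)
    (h0 : x 0 = 0) : x = 0 := by
  funext k
  refine Fin.cases h0 (fun k => ?_) k
  have h1 := congrFun h k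
  simp only [fmap, LinearMap.coe_mk, AddHom.coe_mk, h0, zero_div, zero_mul, sub_zero,
    Pi.zero_apply] at h1
  exact h1

theorem fmap_span {τ : Type} {n : ℕ} (a : Fin n → K) (b : K) (l : τ → Fin (n + 1) → K) (t : ℕ)
    (ht : t + 1 ≤ Module.finrank K (Submodule.span K (Set.range l))) :
    t ≤ Module.finrank K (Submodule.span K
      (Set.range (fun i k => l i k.succ - l i 0 / b * a k))) := by
  have h1 := fcnt_finrank_map (Submodule.span K (Set.range l)) (fmap a b) (fmap_inj a b)
  rw [Submodule.map_span, ← Set.range_comp] at h1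
  have h2 : (fmap a b) ∘ l = fun i k => l i k.succ - l i 0 / b * a k := rfl
  rw [h2] at h1
  omega

theorem fcnt_card_succ (n : ℕ) : (Fintype.card (Om K (Fin (n + 1))) : ℝ) =
    (2 * (Fintype.card K : ℝ) - 2) * Fintype.card (Om K (Fin n)) := by
  have hq : 1 ≤ Fintype.card K := Fintype.card_pos
  simp only [Fintype.card_prod, Fintype.card_fun, Fintype.card_fin, Fintype.card_bool,
    Fintype.card_units]
  push_cast [Nat.cast_sub hq]
  ring

theorem fcnt_bound {τ : Type} [Fintype τ] (n : ℕ) : ∀ (t : ℕ) (l : τ → Fin n → K) (c : τ → K),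
    t ≤ Module.finrank K (Submodule.span K (Set.range l)) →
    fcnt l c ≤ (1 - 1 / (2 * (Fintype.card K : ℝ) - 2)) ^ t * Fintype.card (Om K (Fin n)) := by
  have hq2 : (2 : ℝ) ≤ Fintype.card K := by
    have := Fintype.one_lt_card (α := K)
    exact_mod_cast this
  set q : ℝ := (Fintype.card K : ℝ) with hq
  have hb0 : 0 ≤ 1 - 1 / (2 * q - 2) := by
    have : 1 / (2 * q - 2) ≤ 1 := by
      rw [div_le_one (by linarith)]
      linarith
    linarith
  set β : ℝ := 1 - 1 / (2 * q - 2) with hβ
  have hβq : (2 * q - 2) * β = 2 * q - 3 := by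
    rw [hβ, mul_sub, mul_one, mul_one_div_cancel (by linarith)]
    ring
  induction n with
  | zero =>
    intro t l c ht
    have h1 : Module.finrank K (Submodule.span K (Set.range l)) ≤
        Module.finrank K (Fin 0 → K) := Submodule.finrank_le _
    rw [Module.finrank_fin_fun] at h1
    have h2 : t = 0 := by omega
    subst h2
    rw [pow_zero, one_mul]
    exact fcnt_le_card l c
  | succ n ih =>
    intro t l c ht
    rcases Nat.eq_zero_or_pos t with h0 | h0
    · subst h0
      rw [pow_zero, one_mul]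
      exact fcnt_le_card l c
    obtain ⟨t', rfl⟩ : ∃ t', t = t' + 1 := ⟨t - 1, by omega⟩
    have hcard : (0 : ℝ) ≤ Fintype.card (Om K (Fin n)) := Nat.cast_nonneg _
    rw [fcnt_succ, fcnt_card_succ]
    by_cases hall : ∀ i, l i 0 = 0
    · -- the rank is not changed
      have hrk : t' + 1 ≤ Module.finrank K (Submodule.span K
          (Set.range (fun i (k : Fin n) => l i k.succ))) := by
        have h1 : Function.Injective ((LinearMap.funLeft K K (Fin.succ : Fin n → Fin (n + 1))).domRestrict
            (Submodule.span K (Set.range l))) := by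
          rw [← LinearMap.ker_eq_bot, LinearMap.ker_eq_bot']
          intro m hm
          have h2 : ∀ k : Fin n, m.1 k.succ = 0 := fun k => congrFun hm k
          have h3 : m.1 0 = 0 := by
            have h4 : Submodule.span K (Set.range l) ≤
                LinearMap.ker (LinearMap.proj (0 : Fin (n + 1)) :
                  (Fin (n + 1) → K) →ₗ[K] K) := by
              rw [Submodule.span_le]
              rintro _ ⟨i, rfl⟩
              exact hall i
            exact h4 m.2
          refine Subtype.ext (funext fun k => ?_)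
          exact Fin.cases h3 h2 k
        have h2 := LinearMap.finrank_range_of_inj h1
        rw [LinearMap.range_domRestrict, Submodule.map_span, ← Set.range_comp] at h2
        have h3 : (LinearMap.funLeft K K (Fin.succ : Fin n → Fin (n + 1))) ∘ l =
            fun i (k : Fin n) => l i k.succ := rfl
        rw [h3] at h2
        omega
      have h1 : ∀ c' : τ → K, fcnt (fun i (k : Fin n) => l i k.succ) c' ≤
          β ^ (t' + 1) * Fintype.card (Om K (Fin n)) := fun c' => ih _ _ _ hrk
      have h2 : ∑ v : K, fcnt (fun i (k : Fin n) => l i k.succ) (fun i => c i + l i 0 * v) ≤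
          q * (β ^ (t' + 1) * Fintype.card (Om K (Fin n))) := by
        refine (Finset.sum_le_sum fun v _ => h1 _).trans (le_of_eq ?_)
        rw [Finset.sum_const, Finset.card_univ, nsmul_eq_mul]
      have h3 := mul_le_mul_of_nonneg_left (h1 c) (show 0 ≤ q - 2 by linarith)
      nlinarith [h2, h3]
    · push Not at hall
      obtain ⟨i0, hi0⟩ := hall
      have h1 : fcnt (fun i (k : Fin n) => l i k.succ) c ≤
          β ^ t' * Fintype.card (Om K (Fin n)) := by
        refine ih _ _ _ ?_
        have h2 := fmap_span (0 : Fin n → K) 1 l t' ht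
        have e : (fun i (k : Fin n) => l i k.succ - l i 0 / 1 * (0 : Fin n → K) k) =
            fun i (k : Fin n) => l i k.succ := by
          funext i k
          rw [Pi.zero_apply, mul_zero, sub_zero]
        rw [e] at h2
        exact h2
      have h2 : ∑ v : K, fcnt (fun i (k : Fin n) => l i k.succ) (fun i => c i + l i 0 * v) ≤
          (q - 1) * (β ^ t' * Fintype.card (Om K (Fin n))) := by
        refine (fcnt_sum_le l c i0 hi0).trans ?_
        refine (Finset.sum_le_sum fun s _ => ih t' _ _
          (fmap_span (fun k => l i0 k.succ) (l i0 0) l t' ht)).trans (le_of_eq ?_)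
        rw [Finset.sum_const, Finset.card_univ, nsmul_eq_mul, Fintype.card_units]
        have hq1 : 1 ≤ Fintype.card K := Fintype.card_pos
        push_cast [Nat.cast_sub hq1]
        rfl
      have h3 := mul_le_mul_of_nonneg_left h1 (show 0 ≤ q - 2 by linarith)
      have h4 : β ^ (t' + 1) * ((2 * q - 2) * (Fintype.card (Om K (Fin n)) : ℝ)) =
          (2 * q - 3) * (β ^ t' * (Fintype.card (Om K (Fin n)) : ℝ)) := by
        rw [← hβq, pow_succ]
        ring
      rw [h4]
      nlinarith [h2, h3]

end Count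

/-- MODULE Forms2 (2): the probability that `t` affine forms with independent linear parts all are
nonzero is at most `((2q-3)/(2q-2))^t`. -/
theorem card_nonvanish {K : Type} [Field K] [Fintype K] [DecidableEq K] {ι : Type} [Fintype ι]
    [DecidableEq ι] {t : ℕ} (l : Fin t → (ι → K)) (c : Fin t → K) (hl : LinearIndependent K l) :
    ((univ.filter fun o : Om K ι => ∀ i, ∑ k, l i k * pt o k + c i ≠ 0).card : ℝ) ≤
      (1 - 1 / (2 * (Fintype.card K : ℝ) - 2)) ^ t * Fintype.card (Om K ι) := by
  obtain ⟨n, ⟨e⟩⟩ : ∃ n, Nonempty (ι ≃ Fin n) := ⟨_, ⟨Fintype.equivFin ι⟩⟩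
  let E : Om K ι ≃ Om K (Fin n) :=
    Equiv.prodCongr (Equiv.arrowCongr e (Equiv.refl Kˣ)) (Equiv.arrowCongr e (Equiv.refl Bool))
  have hE : ∀ o k, pt (E o) k = pt o (e.symm k) := fun o k => rfl
  set l' : Fin t → Fin n → K := fun i k => l i (e.symm k) with hl'
  have h1 : ((univ.filter fun o : Om K ι => ∀ i, ∑ k, l i k * pt o k + c i ≠ 0).card : ℝ) =
      fcnt l' c := by
    unfold fcnt
    rw [← E.sum_comp]
    rw [Finset.card_filter]
    push_cast
    refine Finset.sum_congr rfl fun o _ => ?_
    have h2 : ∀ i, ∑ k, l i k * pt o k = ∑ k, l' i k * pt (E o) k := by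
      intro i
      rw [← e.symm.sum_comp]
      rfl
    simp only [h2]
    split_ifs <;> rfl
  have h2 : Fintype.card (Om K ι) = Fintype.card (Om K (Fin n)) := Fintype.card_congr E
  rw [h1, h2]
  refine fcnt_bound n t l' c ?_
  have h3 : LinearIndependent K l' := by
    have h4 := hl.map' (LinearEquiv.funCongrLeft K K e.symm).toLinearMap
      (LinearEquiv.ker _)
    exact h4
  rw [finrank_span_eq_card h3, Fintype.card_fin]

end P346Q
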