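import Vale.Agent.P346Q.Low

/-!
# P346: one block
-/

namespace P346Q

open Finset

/-- A finite dimensional space of functions has an interpolation basis. -/
theorem exists_interp {L : Type*} [Field L] {X : Type*} [Finite X] (z : ℕ) :
    ∀ (V : Submodule L (X → L)), z ≤ Module.finrank L V →
    ∃ (φ : Fin z → X → L) (pt : Fin z → X), (∀ i, φ i ∈ V) ∧
      ∀ i j, φ i (pt j) = if i = j then 1 else 0 := by
  classical
  induction z with
  | zero =>
    intro V _
    exact ⟨fun i => i.elim0, fun i => i.elim0, fun i => i.elim0, fun i => i.elim0⟩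
  | succ z ih =>
    intro V hV
    have hpos : 0 < Module.finrank L V := by omega
    have hne : V ≠ ⊥ := by
      rintro rfl
      rw [finrank_bot] at hpos
      exact lt_irrefl _ hpos
    obtain ⟨f, hfV, hf0⟩ := Submodule.exists_mem_ne_zero_of_ne_bot hne
    obtain ⟨x0, hx0⟩ : ∃ x, f x ≠ 0 := by
      by_contra hcon
      push Not at hcon
      exact hf0 (funext hcon)
    -- the hyperplane of functions vanishing at `x0`
    let ev : V →ₗ[L] L := (LinearMap.proj x0).comp V.subtype
    have hker : z ≤ Module.finrank L (LinearMap.ker ev) := by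
      have h1 := LinearMap.finrank_range_add_finrank_ker ev
      have h2 : Module.finrank L (LinearMap.range ev) ≤ 1 := by
        have := Submodule.finrank_le (LinearMap.range ev)
        simpa using this
      omega
    let V' : Submodule L (X → L) := (LinearMap.ker ev).map V.subtype
    have hV' : Module.finrank L V' = Module.finrank L (LinearMap.ker ev) :=
      LinearEquiv.finrank_eq
        (Submodule.equivMapOfInjective V.subtype V.injective_subtype (LinearMap.ker ev)).symm
    obtain ⟨φ, pt, hφ, hpt⟩ := ih V' (by rw [hV']; exact hker)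
    have hφV : ∀ i, φ i ∈ V ∧ φ i x0 = 0 := by
      intro i
      obtain ⟨v, hv, hvi⟩ := Submodule.mem_map.mp (hφ i)
      rw [← hvi]
      exact ⟨v.2, LinearMap.mem_ker.mp hv⟩
    let g : X → L := (f x0)⁻¹ • (f - ∑ i, f (pt i) • φ i)
    have hgV : g ∈ V := by
      refine Submodule.smul_mem _ _ (Submodule.sub_mem _ hfV (Submodule.sum_mem _ fun i _ => ?_))
      exact Submodule.smul_mem _ _ (hφV i).1
    have hg0 : g x0 = 1 := by
      simp only [g, Pi.smul_apply, Pi.sub_apply, Finset.sum_apply, smul_eq_mul]
      have : ∑ i, f (pt i) * φ i x0 = 0 :=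
        Finset.sum_eq_zero fun i _ => by rw [(hφV i).2, mul_zero]
      rw [this, sub_zero, inv_mul_cancel₀ hx0]
    have hgpt : ∀ j, g (pt j) = 0 := by
      intro j
      simp only [g, Pi.smul_apply, Pi.sub_apply, Finset.sum_apply, smul_eq_mul, hpt]
      simp
    refine ⟨Fin.cons g φ, Fin.cons x0 pt, ?_, ?_⟩
    · intro i
      refine Fin.cases ?_ (fun i => ?_) i
      · exact hgV
      · exact (hφV i).1
    · intro i j
      refine Fin.cases ?_ (fun i => ?_) i
      · refine Fin.cases ?_ (fun j => ?_) j
        · simp [hg0]
        · simp only [Fin.cons_zero, Fin.cons_succ, hgpt]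
          rw [if_neg (Fin.succ_ne_zero j).symm]
      · refine Fin.cases ?_ (fun j => ?_) j
        · simp only [Fin.cons_zero, Fin.cons_succ, (hφV i).2]
          rw [if_neg (Fin.succ_ne_zero i)]
        · simp only [Fin.cons_succ, hpt]
          by_cases h : i = j
          · rw [if_pos h, if_pos (by rw [h])]
          · rw [if_neg h, if_neg (fun hh => h (Fin.succ_injective _ hh))]

section

variable {L : Type*} [Field L] {ι : Type*} [Fintype ι] [DecidableEq ι]

/-- The monomial functions are linearly independent. -/
theorem mon_linearIndependent : LinearIndependent L (mon L : Finset ι → (ι → Bool) → L) := by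
  classical
  rw [Fintype.linearIndependent_iff]
  intro c hc I
  -- strong induction on the set
  induction I using Finset.strongInduction with
  | H I ih =>
    have h := congrFun hc (fun i => decide (i ∈ I))
    simp only [Finset.sum_apply, Pi.smul_apply, smul_eq_mul, Pi.zero_apply] at h
    have hmon : ∀ J : Finset ι, mon L J (fun i => decide (i ∈ I)) = if J ⊆ I then 1 else 0 := by
      intro J
      unfold mon
      rw [Finset.prod_ite_zero]
      by_cases hJ : J ⊆ I
      · rw [if_pos hJ, if_pos (fun i hi => by simpa using hJ hi)]
        simp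
      · rw [if_neg hJ, if_neg]
        intro hh
        exact hJ fun i hi => by simpa using hh i hi
    simp only [hmon] at h
    rw [Finset.sum_eq_single I] at h
    · simpa using h
    · intro J _ hJ
      by_cases hJI : J ⊆ I
      · rw [ih J (Finset.ssubset_iff_subset_ne.mpr ⟨hJI, hJ⟩), zero_mul]
      · rw [if_neg hJI, mul_zero]
    · intro h
      exact absurd (Finset.mem_univ _) h

theorem finrank_low (d : ℕ) : Module.finrank L (Low L (ι := ι) d) =
    (univ.filter fun I : Finset ι => I.card ≤ d).card := by
  classical
  have h1 : Low L (ι := ι) d = Submodule.span L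
      (Set.range fun I : {I : Finset ι // I.card ≤ d} => mon L I.1) := by
    unfold Low
    congr 1
    ext f
    constructor
    · rintro ⟨I, hI, rfl⟩
      exact ⟨⟨I, hI⟩, rfl⟩
    · rintro ⟨I, rfl⟩
      exact ⟨I.1, I.2, rfl⟩
  rw [h1, finrank_span_eq_card, Fintype.card_subtype]
  exact (mon_linearIndependent (L := L) (ι := ι)).comp _ Subtype.val_injective

/-- the functions of degree at most `d` supported on `W` -/
def LowOn (L : Type*) [Field L] (d : ℕ) (W : Finset (ι → Bool)) : Submodule L ((ι → Bool) → L) :=
  Low L d ⊓ { carrier := {f | ∀ x ∉ W, f x = 0}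
              add_mem' := by
                intro a b ha hb x hx
                rw [Pi.add_apply, ha x hx, hb x hx, add_zero]
              zero_mem' := fun x _ => rfl
              smul_mem' := by
                intro c a ha x hx
                rw [Pi.smul_apply, ha x hx, smul_zero] }

theorem finrank_lowOn (d : ℕ) (W : Finset (ι → Bool)) :
    (univ.filter fun I : Finset ι => I.card ≤ d).card ≤
      Module.finrank L (LowOn L d W) + (Wᶜ).card := by
  classical
  -- restriction to the complement of `W`
  let T : Low L (ι := ι) d →ₗ[L] ((Wᶜ : Finset (ι → Bool)) → L) :=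
    (LinearMap.funLeft L L (fun x : (Wᶜ : Finset (ι → Bool)) => x.1)).comp
      (Low L (ι := ι) d).subtype
  have h1 := LinearMap.finrank_range_add_finrank_ker T
  have h2 : Module.finrank L (LinearMap.range T) ≤ (Wᶜ).card := by
    have := Submodule.finrank_le (LinearMap.range T)
    rw [Module.finrank_fintype_fun_eq_card, Fintype.card_coe] at this
    exact this
  have h3 : Module.finrank L (LinearMap.ker T) ≤ Module.finrank L (LowOn L d W) := by
    have e : (LinearMap.ker T).map (Low L (ι := ι) d).subtype ≤ LowOn L d W := by
      rintro f hf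
      obtain ⟨v, hv, rfl⟩ := Submodule.mem_map.mp hf
      refine ⟨v.2, fun x hx => ?_⟩
      have := LinearMap.mem_ker.mp hv
      exact congrFun this ⟨x, by simpa using hx⟩
    have e2 := LinearEquiv.finrank_eq
      (Submodule.equivMapOfInjective (Low L (ι := ι) d).subtype
        (Low L (ι := ι) d).injective_subtype (LinearMap.ker T))
    rw [e2]
    exact Submodule.finrank_mono e
  rw [finrank_low] at h1
  omega

end

end P346Q
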