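import Vale.Agent.P346Q.DecompDef
import Vale.Agent.P346Q.TauDef
import Vale.Agent.P346Q.Coef

/-!
# P346Q: approximation of products by low degree (helper52)
-/

namespace P346Q

open Finset

/-! ### closure lemmas for filtrations -/

theorem Filt.const_fun_mem {K : Type} [Field K] {F : Type} [CommRing F] [Algebra K F] (Φ : Filt K F)
    (c : K) (d : ℕ) : algebraMap K F c ∈ Φ.L d := by
  rw [Algebra.algebraMap_eq_smul_one]
  exact Submodule.smul_mem _ _ (Φ.mono (Nat.zero_le d) Φ.one_mem)

theorem Filt.pow_mem_same {K : Type} [Field K] {F : Type} [CommRing F] [Algebra K F] (Φ : Filt K F)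
    {f : F} {e : ℕ} (hf : f ∈ Φ.L e) (n : ℕ) : f ^ n ∈ Φ.L (n * e) := by
  induction n with
  | zero => rw [pow_zero, Nat.zero_mul]; exact Φ.one_mem
  | succ n ih =>
    rw [pow_succ, Nat.succ_mul]
    exact Φ.mul_mem ih hf

theorem Filt.prod_mem_same {K : Type} [Field K] {F : Type} [CommRing F] [Algebra K F] (Φ : Filt K F)
    {ι : Type} (s : Finset ι) (f : ι → F) {e : ℕ} (hf : ∀ i ∈ s, f i ∈ Φ.L e) :
    ∏ i ∈ s, f i ∈ Φ.L (s.card * e) := by
  classical
  induction s using Finset.induction_on with
  | empty => rw [prod_empty, card_empty, Nat.zero_mul]; exact Φ.one_mem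
  | insert a s ha ih =>
    rw [prod_insert ha, card_insert_of_notMem ha, Nat.add_mul, Nat.one_mul, Nat.add_comm]
    exact Φ.mul_mem (hf a (mem_insert_self a s)) (ih fun i hi => hf i (mem_insert_of_mem hi))

/-! ### averaging -/

theorem prod_avg {R Ω : Type} [Fintype R] [Nonempty R] (B : Finset Ω) (bad : R → Ω → Prop)
    [∀ r o, Decidable (bad r o)] (c : ℝ)
    (h : ∀ o ∈ B, ((univ.filter fun r => bad r o).card : ℝ) ≤ c * Fintype.card R) :
    ∃ r, ((B.filter fun o => bad r o).card : ℝ) ≤ c * B.card := by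
  by_contra hcon
  push Not at hcon
  have h1 : ∑ _r : R, c * (B.card : ℝ) < ∑ r : R, ((B.filter fun o => bad r o).card : ℝ) :=
    Finset.sum_lt_sum_of_nonempty univ_nonempty fun r _ => hcon r
  have h2 : ∑ r : R, ((B.filter fun o => bad r o).card : ℝ) =
      ∑ o ∈ B, ((univ.filter fun r => bad r o).card : ℝ) := by
    have e1 : ∀ r, ((B.filter fun o => bad r o).card : ℝ) =
        ∑ o ∈ B, if bad r o then (1 : ℝ) else 0 := by
      intro r
      rw [Finset.sum_ite, Finset.sum_const_zero, add_zero, Finset.sum_const, nsmul_eq_mul, mul_one]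
    have e2 : ∀ o, ((univ.filter fun r => bad r o).card : ℝ) =
        ∑ r : R, if bad r o then (1 : ℝ) else 0 := by
      intro o
      rw [Finset.sum_ite, Finset.sum_const_zero, add_zero, Finset.sum_const, nsmul_eq_mul, mul_one]
    simp only [e1, e2]
    exact Finset.sum_comm
  rw [h2, Finset.sum_const, card_univ, nsmul_eq_mul] at h1
  have h3 := Finset.sum_le_sum h
  rw [Finset.sum_const, nsmul_eq_mul] at h3
  linarith

/-- MODULE Prod (1): approximation of AND. There is a function `g` of degree
`(q-1)^2 l e` with `g = 1` where all `f j` are nonzero, and `g = 0` at all but a fraction `q^{-l}` of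
the other points. (Induction on `l` with halving as for the field with two elements, multiplying by
`1 - (∑_j ρ_j (1 - f_j^{q-1}))^{q-1}` for a good `ρ`.) -/
theorem and_approx {K : Type} [Field K] [Fintype K] [DecidableEq K] {Ω : Type} [Fintype Ω]
    [DecidableEq Ω] (Φ : Filt K (Ω → K)) {J : ℕ} (f : Fin J → Ω → K) (e : ℕ)
    (hf : ∀ j, f j ∈ Φ.L e) (l : ℕ) :
    ∃ g ∈ Φ.L ((Fintype.card K - 1) ^ 2 * l * e), (∀ o, (∀ j, f j o ≠ 0) → g o = 1) ∧
      ((univ.filter fun o => ¬ (∀ j, f j o ≠ 0) ∧ g o ≠ 0).card : ℝ) ≤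
        (1 / (Fintype.card K : ℝ)) ^ l * Fintype.card Ω := by
  classical
  have hq1 : 1 < Fintype.card K := Fintype.one_lt_card
  have hq0 : (0 : ℝ) < Fintype.card K := by exact_mod_cast (by omega : 0 < Fintype.card K)
  induction l with
  | zero =>
    refine ⟨1, Φ.mono (Nat.zero_le _) Φ.one_mem, fun o _ => rfl, ?_⟩
    rw [pow_zero, one_mul]
    exact_mod_cast (card_le_univ _)
  | succ l ih =>
    obtain ⟨g, hg, hg1, hg2⟩ := ih
    set B := univ.filter fun o => ¬ (∀ j, f j o ≠ 0) ∧ g o ≠ 0 with hB
    let h : (Fin J → K) → Ω → K := fun ρ o =>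
      1 - (∑ j, ρ j * (1 - f j o ^ (Fintype.card K - 1))) ^ (Fintype.card K - 1)
    have hh : ∀ ρ, h ρ ∈ Φ.L ((Fintype.card K - 1) ^ 2 * e) := by
      intro ρ
      have e1 : h ρ = 1 - (∑ j, ρ j • (1 - f j ^ (Fintype.card K - 1))) ^
          (Fintype.card K - 1) := by
        funext o
        simp [h]
      rw [e1]
      refine Submodule.sub_mem _ (Φ.mono (Nat.zero_le _) Φ.one_mem) ?_
      have e2 : (Fintype.card K - 1) ^ 2 * e =
          (Fintype.card K - 1) * ((Fintype.card K - 1) * e) := by ring
      rw [e2]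
      apply Φ.pow_mem_same
      refine Submodule.sum_mem _ fun j _ => Submodule.smul_mem _ _ ?_
      exact Submodule.sub_mem _ (Φ.mono (Nat.zero_le _) Φ.one_mem) (Φ.pow_mem_same (hf j) _)
    have hpow : ∀ x : K, x ^ (Fintype.card K - 1) = if x = 0 then 0 else 1 := by
      intro x
      by_cases hx : x = 0
      · rw [hx, if_pos rfl, zero_pow (by omega)]
      · rw [if_neg hx, FiniteField.pow_card_sub_one_eq_one x hx]
    have hbad : ∀ o ∈ B, ((univ.filter fun ρ => h ρ o ≠ 0).card : ℝ) ≤
        (1 / (Fintype.card K : ℝ)) * Fintype.card (Fin J → K) := by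
      intro o ho
      rw [hB, mem_filter] at ho
      have ho1 := ho.2.1
      push Not at ho1
      obtain ⟨j0, hj0⟩ := ho1
      -- `h ρ o ≠ 0` iff the sum over zeros vanishes
      let S : (Fin J → K) → K := fun ρ => ∑ j, ρ j * (1 - f j o ^ (Fintype.card K - 1))
      have hS : ∀ ρ, h ρ o ≠ 0 → S ρ = 0 := by
        intro ρ hρ
        by_contra hne
        apply hρ
        have : h ρ o = 1 - S ρ ^ (Fintype.card K - 1) := rfl
        rw [this, hpow, if_neg hne, sub_self]
      have hinj : ((univ.filter fun ρ => h ρ o ≠ 0) ×ˢ (univ : Finset K)).card ≤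
          (univ : Finset (Fin J → K)).card := by
        apply Finset.card_le_card_of_injOn (fun p => p.1 + Pi.single j0 p.2)
        · intro p _
          simp
        · rintro ⟨ρ, c⟩ hp ⟨ρ', c'⟩ hp' heq
          simp only [coe_product, coe_filter, mem_univ, true_and, Set.mem_prod,
            Set.mem_ofPred_eq, coe_univ, Set.mem_univ, and_true] at hp hp'
          have h1 : ∀ (ρ : Fin J → K) (c : K), S (ρ + Pi.single j0 c) = S ρ + c := by
            intro ρ c
            have e3 : ∀ j, (ρ + Pi.single j0 c : Fin J → K) j * (1 - f j o ^ (Fintype.card K - 1)) =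
                ρ j * (1 - f j o ^ (Fintype.card K - 1)) + if j = j0 then c else 0 := by
              intro j
              by_cases hj : j = j0
              · subst hj
                rw [hpow, if_pos hj0, Pi.add_apply, Pi.single_eq_same, if_pos rfl]
                ring
              · rw [Pi.add_apply, Pi.single_eq_of_ne hj, if_neg hj]
                ring
            simp only [S, e3]
            rw [Finset.sum_add_distrib, Finset.sum_ite_eq' univ j0 fun _ => c]
            simp
          have heq' : ρ + Pi.single j0 c = ρ' + Pi.single j0 c' := heq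
          have h2 := congrArg S heq'
          rw [h1, h1, hS ρ hp, hS ρ' hp', zero_add, zero_add] at h2
          subst h2
          have h3 : ρ = ρ' := add_right_cancel heq'
          rw [h3]
      rw [card_product, card_univ, card_univ] at hinj
      rw [one_div, inv_mul_eq_div, le_div_iff₀ hq0]
      exact_mod_cast hinj
    obtain ⟨ρ, hρ⟩ := prod_avg B (fun ρ o => h ρ o ≠ 0) (1 / (Fintype.card K : ℝ)) hbad
    refine ⟨g * h ρ, ?_, ?_, ?_⟩
    · have e3 : (Fintype.card K - 1) ^ 2 * (l + 1) * e =
          (Fintype.card K - 1) ^ 2 * l * e + (Fintype.card K - 1) ^ 2 * e := by ring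
      rw [e3]
      exact Φ.mul_mem hg (hh ρ)
    · intro o ho
      have h1 : h ρ o = 1 := by
        have : ∀ j, ρ j * (1 - f j o ^ (Fintype.card K - 1)) = 0 := by
          intro j
          rw [hpow, if_neg (ho j)]
          ring
        simp only [h, this]
        rw [Finset.sum_const_zero, zero_pow (by omega)]
        ring
      rw [Pi.mul_apply, hg1 o ho, h1, mul_one]
    · have h1 : (univ.filter fun o => ¬ (∀ j, f j o ≠ 0) ∧ (g * h ρ) o ≠ 0) ⊆
          B.filter fun o => h ρ o ≠ 0 := by
        intro o ho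
        rw [mem_filter] at ho
        have h2 := ho.2.2
        rw [Pi.mul_apply] at h2
        rw [mem_filter, hB, mem_filter]
        exact ⟨⟨mem_univ _, ho.2.1, left_ne_zero_of_mul h2⟩, right_ne_zero_of_mul h2⟩
      have h2 : ((univ.filter fun o => ¬ (∀ j, f j o ≠ 0) ∧ (g * h ρ) o ≠ 0).card : ℝ) ≤
          ((B.filter fun o => h ρ o ≠ 0).card : ℝ) := by
        exact_mod_cast card_le_card h1
      refine h2.trans (hρ.trans ?_)
      rw [pow_succ, mul_assoc, mul_comm ((1 / (Fintype.card K : ℝ)) ^ l), mul_assoc]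
      apply mul_le_mul_of_nonneg_left _ (by positivity)
      rw [mul_comm]
      exact hg2

/-! ### the tail bound -/

theorem prod_site {p s : ℝ} (hp0 : 0 ≤ p) (hp1 : p ≤ 1) (hs : |s| ≤ 1) :
    p * Real.exp (s * (1 - p)) + (1 - p) * Real.exp (s * (0 - p)) ≤ Real.exp (s ^ 2 / 4) := by
  have hb : ∀ y : ℝ, |y| ≤ 1 → Real.exp y ≤ 1 + y + y ^ 2 := by
    intro y hy
    have h := Real.abs_exp_sub_one_sub_id_le hy
    have h1 := (abs_le.1 h).2
    linarith
  have h1 := hb (s * (1 - p)) (by
    rw [abs_mul, abs_of_nonneg (by linarith : (0 : ℝ) ≤ 1 - p)]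
    have := abs_nonneg s
    nlinarith)
  have h2 := hb (s * (0 - p)) (by
    rw [abs_mul, zero_sub, abs_neg, abs_of_nonneg hp0]
    have := abs_nonneg s
    nlinarith)
  have h3 := Real.add_one_le_exp (s ^ 2 / 4)
  have h4 := mul_le_mul_of_nonneg_left h1 hp0
  have h5 := mul_le_mul_of_nonneg_left h2 (by linarith : (0 : ℝ) ≤ 1 - p)
  have h6 : 0 ≤ s ^ 2 * (p - 1 / 2) ^ 2 := by positivity
  nlinarith

theorem prod_moment {K : Type} [Field K] [Fintype K] [DecidableEq K] (J : ℕ) (v : Kˣ) (s : ℝ)
    (hs : |s| ≤ 1) :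
    ∑ r : Fin J → Kˣ, Real.exp (s * (((univ.filter fun j => r j = v).card : ℝ)
      - J / ((Fintype.card K : ℝ) - 1))) ≤
      Real.exp (s ^ 2 * J / 4) * Fintype.card (Fin J → Kˣ) := by
  classical
  have hq1 : 1 < Fintype.card K := Fintype.one_lt_card
  have hu : (Fintype.card Kˣ : ℝ) = (Fintype.card K : ℝ) - 1 := by
    rw [Fintype.card_units, Nat.cast_sub (by omega)]
    simp
  rw [← hu]
  have hu1 : (1 : ℝ) ≤ Fintype.card Kˣ := by
    exact_mod_cast Fintype.card_pos (α := Kˣ)
  set q : ℝ := (Fintype.card Kˣ : ℝ) with hq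
  have hq0 : 0 < q := by linarith
  have h1 : ∀ r : Fin J → Kˣ, Real.exp (s * (((univ.filter fun j => r j = v).card : ℝ) - J / q)) =
      ∏ j, Real.exp (s * ((if r j = v then 1 else 0) - 1 / q)) := by
    intro r
    rw [← Real.exp_sum, ← Finset.mul_sum, Finset.sum_sub_distrib, Finset.sum_const, card_univ,
      Fintype.card_fin, nsmul_eq_mul, Finset.sum_ite, Finset.sum_const_zero, add_zero,
      Finset.sum_const, nsmul_eq_mul]
    congr 2
    ring
  simp only [h1]
  have h2 : ∑ r : Fin J → Kˣ, ∏ j, Real.exp (s * ((if r j = v then 1 else 0) - 1 / q)) =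
      (∑ c : Kˣ, Real.exp (s * ((if c = v then 1 else 0) - 1 / q))) ^ J := by
    have := Finset.prod_univ_sum (fun _ : Fin J => (univ : Finset Kˣ))
      (fun _ c => Real.exp (s * ((if c = v then (1 : ℝ) else 0) - 1 / q)))
    rw [Fintype.piFinset_univ] at this
    rw [← this, Finset.prod_const, card_univ, Fintype.card_fin]
  rw [h2]
  have h3 : ∑ c : Kˣ, Real.exp (s * ((if c = v then 1 else 0) - 1 / q)) =
      Real.exp (s * (1 - 1 / q)) + (q - 1) * Real.exp (s * (0 - 1 / q)) := by
    rw [← Finset.add_sum_erase _ _ (mem_univ v), if_pos rfl]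
    congr 1
    have : ∀ c ∈ univ.erase v, Real.exp (s * ((if c = v then 1 else 0) - 1 / q)) =
        Real.exp (s * (0 - 1 / q)) := by
      intro c hc
      rw [if_neg (Finset.ne_of_mem_erase hc)]
    rw [Finset.sum_congr rfl this, Finset.sum_const, Finset.card_erase_of_mem (mem_univ v),
      nsmul_eq_mul, card_univ, Nat.cast_sub (Fintype.card_pos)]
    simp [hq]
  have h4 : ∑ c : Kˣ, Real.exp (s * ((if c = v then 1 else 0) - 1 / q)) ≤
      Real.exp (s ^ 2 / 4) * q := by
    rw [h3]
    have h5 := prod_site (p := 1 / q) (s := s) (by positivity) (by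
      rw [div_le_one hq0]; exact hu1) hs
    have h6 := mul_le_mul_of_nonneg_right h5 hq0.le
    have h7 : (1 / q * Real.exp (s * (1 - 1 / q)) + (1 - 1 / q) * Real.exp (s * (0 - 1 / q))) * q =
        Real.exp (s * (1 - 1 / q)) + (q - 1) * Real.exp (s * (0 - 1 / q)) := by
      field_simp
    linarith
  calc (∑ c : Kˣ, Real.exp (s * ((if c = v then 1 else 0) - 1 / q))) ^ J
      ≤ (Real.exp (s ^ 2 / 4) * q) ^ J :=
        pow_le_pow_left₀ (Finset.sum_nonneg fun c _ => (Real.exp_pos _).le) h4 J
    _ = Real.exp (s ^ 2 * J / 4) * Fintype.card (Fin J → Kˣ) := by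
        rw [mul_pow, ← Real.exp_nat_mul, Fintype.card_fun, Fintype.card_fin]
        push_cast
        congr 2
        ring

/-- MODULE Prod (2): tail of the number of `j` with `r_j = v`, `r` uniform in `(K^*)^J`.
(Exponential moments, `exp y ≤ 1 + y + y^2` for `|y| ≤ 1`, `s = 2 W / J`.) -/
theorem card_mult_tail {K : Type} [Field K] [Fintype K] [DecidableEq K] (J W : ℕ)
    (hW : 2 * W ≤ J) (v : Kˣ) :
    ((univ.filter fun r : Fin J → Kˣ => (W : ℝ) <
      |((univ.filter fun j => r j = v).card : ℝ) - J / ((Fintype.card K : ℝ) - 1)|).card : ℝ) ≤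
      2 * Real.exp (-(W : ℝ) ^ 2 / J) * Fintype.card (Fin J → Kˣ) := by
  rcases Nat.eq_zero_or_pos J with hJ | hJ
  · subst hJ
    have hW0 : W = 0 := by omega
    subst hW0
    have : (univ.filter fun r : Fin 0 → Kˣ => ((0 : ℕ) : ℝ) <
      |((univ.filter fun j => r j = v).card : ℝ) - (0 : ℕ) / ((Fintype.card K : ℝ) - 1)|) = ∅ := by
      rw [Finset.filter_eq_empty_iff]
      intro r _
      simp
    rw [this, card_empty, Nat.cast_zero]
    positivity
  · have hJ0 : (0 : ℝ) < J := by exact_mod_cast hJ
    have hWJ : 2 * (W : ℝ) ≤ J := by exact_mod_cast hW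
    set s : ℝ := 2 * W / J with hs
    have hs0 : 0 ≤ s := by positivity
    have hs1 : s ≤ 1 := by
      rw [hs, div_le_one hJ0]
      exact hWJ
    have habs : |s| ≤ 1 := by rw [abs_of_nonneg hs0]; exact hs1
    have habs' : |(-s)| ≤ 1 := by rw [abs_neg]; exact habs
    have hkey : ∀ r ∈ (univ.filter fun r : Fin J → Kˣ => (W : ℝ) <
        |((univ.filter fun j => r j = v).card : ℝ) - J / ((Fintype.card K : ℝ) - 1)|),
        Real.exp (s * W) ≤
        Real.exp (s * (((univ.filter fun j => r j = v).card : ℝ)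
          - J / ((Fintype.card K : ℝ) - 1))) +
        Real.exp ((-s) * (((univ.filter fun j => r j = v).card : ℝ)
          - J / ((Fintype.card K : ℝ) - 1))) := by
      intro r hr
      rw [Finset.mem_filter] at hr
      have hr2 := hr.2
      set A := ((univ.filter fun j => r j = v).card : ℝ) - J / ((Fintype.card K : ℝ) - 1) with hA
      rw [lt_abs] at hr2
      rcases hr2 with h | h
      · have h3 : Real.exp (s * W) ≤ Real.exp (s * A) :=
          Real.exp_le_exp.2 (mul_le_mul_of_nonneg_left h.le hs0)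
        have h4 := (Real.exp_pos ((-s) * A)).le
        linarith
      · have h3 : Real.exp (s * W) ≤ Real.exp ((-s) * A) := by
          apply Real.exp_le_exp.2
          rw [neg_mul, ← mul_neg]
          exact mul_le_mul_of_nonneg_left h.le hs0
        have h4 := (Real.exp_pos (s * A)).le
        linarith
    have h5 := Finset.sum_le_sum hkey
    rw [Finset.sum_const, nsmul_eq_mul, Finset.sum_add_distrib] at h5
    have h6 : ∀ t : ℝ, ∑ r ∈ (univ.filter fun r : Fin J → Kˣ => (W : ℝ) <
        |((univ.filter fun j => r j = v).card : ℝ) - J / ((Fintype.card K : ℝ) - 1)|),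
        Real.exp (t * (((univ.filter fun j => r j = v).card : ℝ)
          - J / ((Fintype.card K : ℝ) - 1))) ≤
        ∑ r : Fin J → Kˣ, Real.exp (t * (((univ.filter fun j => r j = v).card : ℝ)
          - J / ((Fintype.card K : ℝ) - 1))) := fun t =>
      Finset.sum_le_sum_of_subset_of_nonneg (filter_subset _ _) fun _ _ _ => (Real.exp_pos _).le
    have h7 := (h6 s).trans (prod_moment J v s habs)
    have h8 := (h6 (-s)).trans (prod_moment J v (-s) habs')
    rw [neg_sq] at h8
    have h9 : ((univ.filter fun r : Fin J → Kˣ => (W : ℝ) <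
        |((univ.filter fun j => r j = v).card : ℝ) - J / ((Fintype.card K : ℝ) - 1)|).card : ℝ) *
        Real.exp (s * W) ≤ 2 * (Real.exp (s ^ 2 * J / 4) * Fintype.card (Fin J → Kˣ)) := by
      linarith
    rw [← le_div_iff₀ (Real.exp_pos _)] at h9
    refine h9.trans (le_of_eq ?_)
    have e1 : Real.exp (-(W : ℝ) ^ 2 / J) = Real.exp (s ^ 2 * J / 4) / Real.exp (s * W) := by
      rw [← Real.exp_sub]
      congr 1
      rw [hs]
      field_simp
      ring
    rw [e1]
    ring

/-! ### products -/

theorem choose_ind {K : Type} [Field K] {J : ℕ} (p : Fin J → Prop) [DecidablePred p] (i : ℕ) :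
    (((univ.filter p).card.choose i : ℕ) : K) =
      ∑ A ∈ powersetCard i (univ : Finset (Fin J)), ∏ j ∈ A, (if p j then (1 : K) else 0) := by
  have h1 : ∀ A : Finset (Fin J), ∏ j ∈ A, (if p j then (1 : K) else 0) =
      if A ⊆ univ.filter p then 1 else 0 := by
    intro A
    rw [Finset.prod_ite_zero, Finset.prod_const_one]
    congr 1
    simp [Finset.subset_iff]
  simp only [h1]
  rw [Finset.sum_ite, Finset.sum_const_zero, add_zero, Finset.sum_const, nsmul_eq_mul, mul_one,
    ← Finset.card_powersetCard]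
  congr 2
  ext A
  simp only [mem_powersetCard, mem_filter, subset_univ, true_and]
  tauto

theorem count_mem {K : Type} [Field K] [Fintype K] [DecidableEq K] {Ω : Type}
    (Φ : Filt K (Ω → K)) {J : ℕ} (f : Fin J → Ω → K) (e : ℕ) (hf : ∀ j, f j ∈ Φ.L e)
    (v : K) (a : ℕ → K) (D : ℕ) :
    (fun o => tauN a D (univ.filter fun j => f j o = v).card) ∈
      Φ.L (D * ((Fintype.card K - 1) * e)) := by
  classical
  have hq1 : 1 < Fintype.card K := Fintype.one_lt_card
  have hind : ∀ j, (fun o => if f j o = v then (1 : K) else 0) ∈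
      Φ.L ((Fintype.card K - 1) * e) := by
    intro j
    have e1 : (fun o => if f j o = v then (1 : K) else 0) =
        1 - (f j - algebraMap K (Ω → K) v) ^ (Fintype.card K - 1) := by
      funext o
      have e2 : (1 - (f j - algebraMap K (Ω → K) v) ^ (Fintype.card K - 1)) o =
          1 - (f j o - v) ^ (Fintype.card K - 1) := rfl
      rw [e2]
      by_cases h : f j o = v
      · rw [if_pos h, h, sub_self, zero_pow (by omega), sub_zero]
      · rw [if_neg h, FiniteField.pow_card_sub_one_eq_one _ (sub_ne_zero.2 h), sub_self]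
    rw [e1]
    exact Submodule.sub_mem _ (Φ.mono (Nat.zero_le _) Φ.one_mem)
      (Φ.pow_mem_same (Submodule.sub_mem _ (hf j) (Φ.const_fun_mem v e)) _)
  have e3 : (fun o => tauN a D (univ.filter fun j => f j o = v).card) =
      ∑ i ∈ range (D + 1), a i • ∑ A ∈ powersetCard i (univ : Finset (Fin J)),
        ∏ j ∈ A, (fun o => if f j o = v then (1 : K) else 0) := by
    funext o
    unfold tauN
    rw [Finset.sum_apply]
    refine Finset.sum_congr rfl fun i _ => ?_
    rw [Pi.smul_apply, smul_eq_mul, Finset.sum_apply, choose_ind]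
    congr 1
    refine Finset.sum_congr rfl fun A _ => ?_
    rw [Finset.prod_apply]
  rw [e3]
  refine Submodule.sum_mem _ fun i hi => Submodule.smul_mem _ _ (Submodule.sum_mem _ fun A hA => ?_)
  have hi' : i ≤ D := by
    rw [mem_range] at hi
    omega
  have hA' := (mem_powersetCard.1 hA).2
  have := Φ.prod_mem_same A (fun j => fun o => if f j o = v then (1 : K) else 0) fun j _ => hind j
  rw [hA'] at this
  exact Φ.mono (Nat.mul_le_mul_right _ hi') this

/-- MODULE Prod (3): approximation of a product of `J` functions of degree `e`.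
For `r ∈ (K^*)^J` uniform, `∏ f_j = ∏ r_j⁻¹ * AND * ∏_{v ∈ K^*} P_v` where
`P_v = tauN (a_v) (2W+1) (#{j : r_j f_j = v})`, `tauN (a_v) (2 W + 1) c = v ^ c` for `c` in the window
`[⌊J/(q-1)⌋ - W, ⌊J/(q-1)⌋ + W + 1]` (exists_window_coef); the number of `j` with `r_j f_j = v` enters
through `choose`, i.e. the elementary symmetric functions of the indicators
`1 - (r_j f_j - v)^{q-1}`. For a point where all `f_j ≠ 0` the vector `(r_j f_j)` is uniform. -/
theorem prod_approx {K : Type} [Field K] [Fintype K] [DecidableEq K] {Ω : Type} [Fintype Ω]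
    [DecidableEq Ω] (Φ : Filt K (Ω → K)) {J : ℕ} (f : Fin J → Ω → K) (e : ℕ)
    (hf : ∀ j, f j ∈ Φ.L e) (l W : ℕ) (hW : 2 * W ≤ J) :
    ∃ g ∈ Φ.L ((Fintype.card K - 1) ^ 2 * (l + 2 * W + 1) * e),
      ((univ.filter fun o => g o ≠ ∏ j, f j o).card : ℝ) ≤
        ((1 / (Fintype.card K : ℝ)) ^ l +
          2 * ((Fintype.card K : ℝ) - 1) * Real.exp (-(W : ℝ) ^ 2 / J)) * Fintype.card Ω := by
  classical
  have hq1 : 1 < Fintype.card K := Fintype.one_lt_card
  have hcq : Fintype.card Kˣ = Fintype.card K - 1 := Fintype.card_units K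
  have hcqR : (Fintype.card Kˣ : ℝ) = (Fintype.card K : ℝ) - 1 := by
    rw [hcq, Nat.cast_sub (by omega)]
    simp
  obtain ⟨G, hG, hG1, hG2⟩ := and_approx Φ f e hf l
  choose a ha using fun v : Kˣ =>
    exists_window_coef (v : K) (J / (Fintype.card K - 1) - W) (2 * W + 1)
  let n : (Fin J → Kˣ) → Kˣ → Ω → ℕ := fun r v o =>
    (univ.filter fun j => (r j : K) * f j o = v).card
  let bad : (Fin J → Kˣ) → Ω → Prop := fun r o =>
    ∃ v : Kˣ, (W : ℝ) < |(n r v o : ℝ) - J / ((Fintype.card K : ℝ) - 1)|
  set B := univ.filter fun o => ∀ j, f j o ≠ 0 with hB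
  have hbad : ∀ o ∈ B, ((univ.filter fun r => bad r o).card : ℝ) ≤
      (2 * ((Fintype.card K : ℝ) - 1) * Real.exp (-(W : ℝ) ^ 2 / J)) *
        Fintype.card (Fin J → Kˣ) := by
    intro o ho
    rw [hB, mem_filter] at ho
    have ho' := ho.2
    let φ : Fin J → Kˣ := fun j => Units.mk0 (f j o) (ho' j)
    have h1 : (univ.filter fun r => bad r o) ⊆ (univ : Finset Kˣ).biUnion fun v =>
        univ.filter fun r : Fin J → Kˣ =>
          (W : ℝ) < |(n r v o : ℝ) - J / ((Fintype.card K : ℝ) - 1)| := by
      intro r hr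
      rw [mem_filter] at hr
      obtain ⟨v, hv⟩ := hr.2
      rw [mem_biUnion]
      exact ⟨v, mem_univ _, by rw [mem_filter]; exact ⟨mem_univ _, hv⟩⟩
    have h2 : ∀ v : Kˣ, ((univ.filter fun r : Fin J → Kˣ =>
        (W : ℝ) < |(n r v o : ℝ) - J / ((Fintype.card K : ℝ) - 1)|).card : ℝ) ≤
        2 * Real.exp (-(W : ℝ) ^ 2 / J) * Fintype.card (Fin J → Kˣ) := by
      intro v
      refine le_trans ?_ (card_mult_tail J W hW v)
      have hn : ∀ r : Fin J → Kˣ, n r v o = (univ.filter fun j => (r * φ) j = v).card := by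
        intro r
        have : ∀ j, ((r j : K) * f j o = v ↔ (r * φ) j = v) := by
          intro j
          rw [← Units.val_inj, Pi.mul_apply, Units.val_mul]
          rfl
        simp only [n, this]
      have hle : (univ.filter fun r : Fin J → Kˣ =>
          (W : ℝ) < |(n r v o : ℝ) - J / ((Fintype.card K : ℝ) - 1)|).card ≤
          (univ.filter fun r : Fin J → Kˣ => (W : ℝ) <
          |((univ.filter fun j => r j = v).card : ℝ) - J / ((Fintype.card K : ℝ) - 1)|).card := by
        apply Finset.card_le_card_of_injOn (fun r => r * φ)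
        · intro r hr
          simp only [coe_filter, mem_univ, true_and, Set.mem_ofPred_eq] at hr ⊢
          rw [hn] at hr
          exact hr
        · intro r _ r' _ h
          exact mul_right_cancel h
      exact_mod_cast hle
    calc ((univ.filter fun r => bad r o).card : ℝ)
        ≤ (((univ : Finset Kˣ).biUnion fun v => univ.filter fun r : Fin J → Kˣ =>
          (W : ℝ) < |(n r v o : ℝ) - J / ((Fintype.card K : ℝ) - 1)|).card : ℝ) := by
          exact_mod_cast card_le_card h1
      _ ≤ ∑ v : Kˣ, ((univ.filter fun r : Fin J → Kˣ =>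
          (W : ℝ) < |(n r v o : ℝ) - J / ((Fintype.card K : ℝ) - 1)|).card : ℝ) := by
          exact_mod_cast card_biUnion_le
      _ ≤ ∑ _v : Kˣ, 2 * Real.exp (-(W : ℝ) ^ 2 / J) * Fintype.card (Fin J → Kˣ) :=
          Finset.sum_le_sum fun v _ => h2 v
      _ = _ := by
          rw [Finset.sum_const, card_univ, nsmul_eq_mul, hcqR]
          ring
  obtain ⟨r, hr⟩ := prod_avg B bad _ hbad
  have hPmem : ∀ v : Kˣ, (fun o => tauN (a v) (2 * W + 1) (n r v o)) ∈
      Φ.L ((2 * W + 1) * ((Fintype.card K - 1) * e)) := by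
    intro v
    exact count_mem Φ (fun j => (r j : K) • f j) e (fun j => Submodule.smul_mem _ _ (hf j))
      (v : K) (a v) (2 * W + 1)
  refine ⟨(∏ j, ((r j)⁻¹ : Kˣ) : Kˣ).val •
    (G * ∏ v : Kˣ, fun o => tauN (a v) (2 * W + 1) (n r v o)), ?_, ?_⟩
  · refine Submodule.smul_mem _ _ ?_
    have h1 := Φ.prod_mem_same (univ : Finset Kˣ)
      (fun v => fun o => tauN (a v) (2 * W + 1) (n r v o)) fun v _ => hPmem v
    rw [card_univ, hcq] at h1
    have e1 : (Fintype.card K - 1) ^ 2 * (l + 2 * W + 1) * e = (Fintype.card K - 1) ^ 2 * l * e +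
        (Fintype.card K - 1) * ((2 * W + 1) * ((Fintype.card K - 1) * e)) := by ring
    rw [e1]
    exact Φ.mul_mem hG h1
  · have hsub : (univ.filter fun o => ((∏ j, ((r j)⁻¹ : Kˣ) : Kˣ).val •
        (G * ∏ v : Kˣ, fun o => tauN (a v) (2 * W + 1) (n r v o))) o ≠ ∏ j, f j o) ⊆
        (univ.filter fun o => ¬ (∀ j, f j o ≠ 0) ∧ G o ≠ 0) ∪ B.filter fun o => bad r o := by
      intro o ho
      rw [mem_filter] at ho
      have ho2 := ho.2
      rw [Pi.smul_apply, Pi.mul_apply, Finset.prod_apply, smul_eq_mul] at ho2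
      rw [mem_union]
      by_cases hall : ∀ j, f j o ≠ 0
      · right
        rw [mem_filter, hB, mem_filter]
        refine ⟨⟨mem_univ _, hall⟩, ?_⟩
        by_contra hnb
        apply ho2
        have hwin : ∀ v : Kˣ, tauN (a v) (2 * W + 1) (n r v o) = (v : K) ^ n r v o := by
          intro v
          have hv : |(n r v o : ℝ) - J / ((Fintype.card K : ℝ) - 1)| ≤ W := by
            by_contra hcon
            exact hnb ⟨v, not_le.1 hcon⟩
          rw [abs_le] at hv
          have hq0 : (0 : ℝ) < (Fintype.card K : ℝ) - 1 := by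
            rw [← hcqR]
            exact_mod_cast Fintype.card_pos
          have hdiv1 : ((J / (Fintype.card K - 1) : ℕ) : ℝ) ≤ J / ((Fintype.card K : ℝ) - 1) := by
            have := @Nat.cast_div_le ℝ _ _ _ J (Fintype.card K - 1)
            rw [Nat.cast_sub (by omega)] at this
            simpa using this
          have hdiv2 : (J : ℝ) / ((Fintype.card K : ℝ) - 1) <
              ((J / (Fintype.card K - 1) : ℕ) : ℝ) + 1 := by
            rw [div_lt_iff₀ hq0]
            have h1 := Nat.lt_mul_div_succ J (show 0 < Fintype.card K - 1 by omega)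
            have h2 : (J : ℝ) < ((Fintype.card K - 1 : ℕ) : ℝ) *
                (((J / (Fintype.card K - 1) : ℕ) : ℝ) + 1) := by exact_mod_cast h1
            rw [Nat.cast_sub (by omega)] at h2
            push_cast at h2
            linarith
          apply ha
          · have h1 : ((J / (Fintype.card K - 1) : ℕ) : ℝ) ≤ (n r v o + W : ℕ) := by
              push_cast
              linarith
            have h2 : J / (Fintype.card K - 1) ≤ n r v o + W := by exact_mod_cast h1
            omega
          · have h1 : ((n r v o : ℕ) : ℝ) < ((J / (Fintype.card K - 1) + 1 + W : ℕ) : ℝ) := by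
              push_cast
              linarith
            have h2 : n r v o < J / (Fintype.card K - 1) + 1 + W := by exact_mod_cast h1
            omega
        rw [hG1 o hall, one_mul, Finset.prod_congr rfl fun v _ => hwin v]
        let u : Fin J → Kˣ := fun j => r j * Units.mk0 (f j o) (hall j)
        have hn : ∀ v : Kˣ, n r v o = (univ.filter fun j => u j = v).card := by
          intro v
          have : ∀ j, ((r j : K) * f j o = v ↔ u j = v) := by
            intro j
            rw [← Units.val_inj, Units.val_mul]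
            rfl
          simp only [n, this]
        have h1 : ∏ v : Kˣ, (v : K) ^ n r v o = ∏ j, (u j : K) := by
          rw [← Finset.prod_fiberwise' univ u fun v : Kˣ => (v : K)]
          refine Finset.prod_congr rfl fun v _ => ?_
          rw [Finset.prod_const, hn]
        rw [h1]
        have h2 : ∀ j, (u j : K) = (r j : K) * f j o := fun j => rfl
        simp only [h2]
        rw [Finset.prod_mul_distrib, ← mul_assoc]
        have h3 : (∏ j, ((r j)⁻¹ : Kˣ) : Kˣ).val * ∏ j, (r j : K) = 1 := by
          rw [Units.coe_prod, ← Finset.prod_mul_distrib]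
          apply Finset.prod_eq_one
          intro j _
          exact Units.inv_mul (r j)
        rw [h3, one_mul]
      · left
        rw [mem_filter]
        refine ⟨mem_univ _, hall, ?_⟩
        intro hG0
        apply ho2
        rw [hG0, zero_mul, mul_zero]
        push Not at hall
        obtain ⟨j, hj⟩ := hall
        exact (Finset.prod_eq_zero (mem_univ j) hj).symm
    have hcard := card_le_card hsub
    have hu := card_union_le (univ.filter fun o => ¬ (∀ j, f j o ≠ 0) ∧ G o ≠ 0)
      (B.filter fun o => bad r o)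
    have h1 : ((univ.filter fun o => ((∏ j, ((r j)⁻¹ : Kˣ) : Kˣ).val •
        (G * ∏ v : Kˣ, fun o => tauN (a v) (2 * W + 1) (n r v o))) o ≠ ∏ j, f j o).card : ℝ) ≤
        ((univ.filter fun o => ¬ (∀ j, f j o ≠ 0) ∧ G o ≠ 0).card : ℝ) +
          ((B.filter fun o => bad r o).card : ℝ) := by exact_mod_cast hcard.trans hu
    have hBΩ : (B.card : ℝ) ≤ Fintype.card Ω := by exact_mod_cast card_le_univ B
    have hc0 : 0 ≤ 2 * ((Fintype.card K : ℝ) - 1) * Real.exp (-(W : ℝ) ^ 2 / J) := by
      rw [← hcqR]
      positivity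
    have h2 := mul_le_mul_of_nonneg_left hBΩ hc0
    rw [add_mul]
    linarith

end P346Q
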