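import Vale.Agent.P346Q.Forms2
import Vale.Agent.P346Q.Prod

/-!
# P346Q: homogeneous circuits are approximated by functions of low degree (helper52)
-/

namespace P346Q

open Finset P346

section Lists

variable {K : Type} [Field K] {F : Type} [CommRing F] [Algebra K F]

theorem Filt.list_prod_mem (Φ : Filt K F) {α : Type} (s : List α) (f : α → F) (d : α → ℕ)
    (hf : ∀ i ∈ s, f i ∈ Φ.L (d i)) : (s.map f).prod ∈ Φ.L (s.map d).sum := by
  induction s with
  | nil => simpa using Φ.one_mem
  | cons a s ih =>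
    simp only [List.map_cons, List.prod_cons, List.sum_cons]
    exact Φ.mul_mem (hf a (List.mem_cons_self))
      (ih fun i hi => hf i (List.mem_cons_of_mem a hi))

theorem Filt.list_sum_mem (Φ : Filt K F) {α : Type} (s : List α) (f : α → F) (d : ℕ)
    (hf : ∀ i ∈ s, f i ∈ Φ.L d) : (s.map f).sum ∈ Φ.L d := by
  induction s with
  | nil => simp
  | cons a s ih =>
    rw [List.map_cons, List.sum_cons]
    exact Submodule.add_mem _ (hf a (List.mem_cons_self))
      (ih fun i hi => hf i (List.mem_cons_of_mem a hi))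

/-- grouping of a product of elements of degree at most `D` into few products of degree at most
`2 D`. -/
theorem layer_group (Φ : Filt K F) (D : ℕ) {α : Type} (s : List α) (f : α → F) (d : α → ℕ)
    (hf : ∀ i ∈ s, f i ∈ Φ.L (d i)) (hd : ∀ i ∈ s, d i ≤ D) :
    ∃ (f0 : F) (d0 : ℕ) (cl : List F), f0 ∈ Φ.L d0 ∧ d0 ≤ 2 * D ∧
      (∀ g ∈ cl, g ∈ Φ.L (2 * D)) ∧ d0 + cl.length * D ≤ (s.map d).sum ∧
      f0 * cl.prod = (s.map f).prod := by
  induction s with
  | nil => exact ⟨1, 0, [], Φ.one_mem, by omega, by simp, by simp, by simp⟩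
  | cons a s ih =>
    obtain ⟨f0, d0, cl, h1, h2, h3, h4, h5⟩ := ih
      (fun i hi => hf i (List.mem_cons_of_mem a hi)) (fun i hi => hd i (List.mem_cons_of_mem a hi))
    have ha := hf a List.mem_cons_self
    have hda := hd a List.mem_cons_self
    by_cases hD : d0 ≤ D
    · refine ⟨f a * f0, d a + d0, cl, Φ.mul_mem ha h1, by omega, h3, ?_, ?_⟩
      · rw [List.map_cons, List.sum_cons]; omega
      · rw [List.map_cons, List.prod_cons, ← h5]; ring
    · refine ⟨f a, d a, f0 :: cl, ha, by omega, ?_, ?_, ?_⟩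
      · intro g hg
        rcases List.mem_cons.mp hg with h | h
        · rw [h]; exact Φ.mono h2 h1
        · exact h3 g h
      · rw [List.map_cons, List.sum_cons, List.length_cons, Nat.succ_mul]
        omega
      · rw [List.map_cons, List.prod_cons, List.prod_cons, ← h5]

theorem layer_pad {R : Type} [CommRing R] (J : ℕ) : ∀ (s : List R), s.length ≤ J →
    ∃ f : Fin J → R, ∏ j, f j = s.prod ∧ ∀ j, f j ∈ s ∨ f j = 1 := by
  induction J with
  | zero =>
    intro s hs
    have : s = [] := List.length_eq_zero_iff.mp (by omega)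
    subst this
    exact ⟨fun j => 1, by simp, fun j => Or.inr rfl⟩
  | succ J ih =>
    intro s hs
    cases s with
    | nil => exact ⟨fun j => 1, by simp, fun j => Or.inr rfl⟩
    | cons a s =>
      obtain ⟨f, hf1, hf2⟩ := ih s (by rw [List.length_cons] at hs; omega)
      refine ⟨Fin.cons a f, ?_, ?_⟩
      · rw [Fin.prod_univ_succ, Fin.cons_zero, List.prod_cons, ← hf1]
        simp only [Fin.cons_succ]
      · intro j
        refine Fin.cases ?_ (fun j => ?_) j
        · left; rw [Fin.cons_zero]; exact List.mem_cons_self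
        · rw [Fin.cons_succ]
          rcases hf2 j with h | h
          · left; exact List.mem_cons_of_mem a h
          · right; exact h

theorem layer_fin (Φ : Filt K F) (D n : ℕ) (hD : 1 ≤ D) {α : Type} (s : List α) (f : α → F)
    (d : α → ℕ) (hf : ∀ i ∈ s, f i ∈ Φ.L (d i)) (hd : ∀ i ∈ s, d i ≤ D)
    (hn : (s.map d).sum ≤ n) :
    ∃ F' : Fin (n / D + 1) → F, ∏ j, F' j = (s.map f).prod ∧ ∀ j, F' j ∈ Φ.L (2 * D) := by
  obtain ⟨f0, d0, cl, h1, h2, h3, h4, h5⟩ := layer_group Φ D s f d hf hd
  have h6 : cl.length ≤ n / D := by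
    rw [Nat.le_div_iff_mul_le (by omega)]
    omega
  obtain ⟨F', hF1, hF2⟩ := layer_pad (n / D + 1) (f0 :: cl) (by rw [List.length_cons]; omega)
  refine ⟨F', by rw [hF1, List.prod_cons, h5], fun j => ?_⟩
  rcases hF2 j with h | h
  · rcases List.mem_cons.mp h with h | h
    · rw [h]; exact Φ.mono h2 h1
    · exact h3 _ h
  · rw [h]; exact Φ.one_mem' _

end Lists

section Aff

variable {K : Type} [Field K] {ι : Type} [Fintype ι]

/-- affine functions of the sample point -/
def affL : ((ι → K) × K) →ₗ[K] (Om K ι → K) where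
  toFun a o := ∑ k, a.1 k * pt o k + a.2
  map_add' a b := by
    funext o
    simp only [Prod.fst_add, Prod.snd_add, Pi.add_apply, add_mul, Finset.sum_add_distrib]
    ring
  map_smul' c a := by
    funext o
    simp only [Prod.smul_fst, Prod.smul_snd, Pi.smul_apply, smul_eq_mul, RingHom.id_apply,
      mul_add, Finset.mul_sum, mul_assoc]

theorem affL_apply (a : (ι → K) × K) (o : Om K ι) :
    affL a o = ∑ k, a.1 k * pt o k + a.2 := rfl

theorem affL_mem (a : (ι → K) × K) : affL a ∈ (omFilt K ι).L 1 := by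
  have h : affL a = ∑ k, a.1 k • (fun o : Om K ι => pt o k) + a.2 • (1 : Om K ι → K) := by
    funext o
    rw [affL_apply]
    simp [Finset.sum_apply]
  rw [h]
  exact Submodule.add_mem _ (Submodule.sum_mem _ fun k _ => Submodule.smul_mem _ _ (pt_mem k))
    ((omFilt K ι).const_mem _ _)

/-- linear part only -/
theorem affL_split (a : (ι → K) × K) (o : Om K ι) : affL a o = affL (a.1, 0) o + a.2 := by
  simp [affL_apply]

variable [Fintype K] [DecidableEq K] [DecidableEq ι]

/-- a product of affine forms vanishes off a small set, or has low degree -/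
theorem layer_gate {α : Type} (s : List α) (A : α → (ι → K) × K) (t : ℕ) :
    ∃ (h : Om K ι → K) (E : Finset (Om K ι)), h ∈ (omFilt K ι).L ((Fintype.card K - 1) * t) ∧
      (h = 0 ∨ h = (s.map fun i => affL (A i)).prod) ∧
      (∀ o, o ∉ E → (s.map fun i => affL (A i)).prod o = h o) ∧
      (E.card : ℝ) ≤ (1 - 1 / (2 * (Fintype.card K : ℝ) - 2)) ^ t * Fintype.card (Om K ι) := by
  classical
  have hq2 : (2 : ℝ) ≤ Fintype.card K := by
    have := Fintype.one_lt_card (α := K)
    exact_mod_cast this
  have hb0 : 0 ≤ 1 - 1 / (2 * (Fintype.card K : ℝ) - 2) := by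
    have : 1 / (2 * (Fintype.card K : ℝ) - 2) ≤ 1 := by
      rw [div_le_one (by linarith)]
      linarith
    linarith
  set T : Set (ι → K) := {a | ∃ i ∈ s, (A i).1 = a} with hT
  obtain ⟨b, hbT, hspan, hind⟩ := exists_linearIndependent K T
  have hbfin : b.Finite := hind.setFinite
  haveI : Fintype b := hbfin.fintype
  by_cases hcard : t ≤ Fintype.card b
  · -- many independent linear parts
    obtain ⟨φ⟩ : Nonempty (Fin t ↪ b) := by
      have : Fintype.card (Fin t) ≤ Fintype.card b := by rwa [Fintype.card_fin]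
      exact Function.Embedding.nonempty_of_card_le this
    have hch : ∀ m : Fin t, ∃ i ∈ s, (A i).1 = (φ m : ι → K) := fun m => hbT (φ m).2
    choose J hJs hJ using hch
    refine ⟨0, univ.filter fun o : Om K ι => ∀ m : Fin t,
      ∑ k, (A (J m)).1 k * pt o k + (A (J m)).2 ≠ 0, Submodule.zero_mem _, Or.inl rfl, ?_, ?_⟩
    · intro o ho
      rw [Finset.mem_filter] at ho
      have h1 : ∃ m : Fin t, ∑ k, (A (J m)).1 k * pt o k + (A (J m)).2 = 0 := by
        by_contra h2
        push Not at h2
        exact ho ⟨Finset.mem_univ _, h2⟩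
      obtain ⟨m, hm⟩ := h1
      have h2 : (s.map fun i => affL (A i)).prod o = (s.map fun i => affL (A i) o).prod := by
        rw [Pi.list_prod_apply, List.map_map]
        rfl
      rw [h2, Pi.zero_apply]
      apply List.prod_eq_zero
      rw [List.mem_map]
      exact ⟨J m, hJs m, hm⟩
    · have h1 : LinearIndependent K (fun m : Fin t => (A (J m)).1) := by
        have h2 : (fun m : Fin t => (A (J m)).1) = (fun c : b => (c : ι → K)) ∘ φ := by
          funext m
          exact hJ m
        rw [h2]
        exact hind.comp φ φ.injective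
      exact card_nonvanish (fun m : Fin t => (A (J m)).1) (fun m => (A (J m)).2) h1
  · -- function of few linear forms
    rw [not_le] at hcard
    set r := Fintype.card b with hr
    obtain ⟨e⟩ : Nonempty (b ≃ Fin r) := ⟨Fintype.equivFin b⟩
    have hmem : ∀ i ∈ s, (A i).1 ∈ Submodule.span K (Set.range (fun c : b => (c : ι → K))) := by
      intro i hi
      rw [Subtype.range_coe, hspan]
      exact Submodule.subset_span ⟨i, hi, rfl⟩
    have hco : ∀ i, ∃ c : b → K, i ∈ s → ∑ m : b, c m • (m : ι → K) = (A i).1 := by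
      intro i
      by_cases hi : i ∈ s
      · obtain ⟨c, hc⟩ := (Submodule.mem_span_range_iff_exists_fun K).mp (hmem i hi)
        exact ⟨c, fun _ => hc⟩
      · exact ⟨0, fun h => absurd h hi⟩
    choose c hc using hco
    refine ⟨(s.map fun i => affL (A i)).prod, ∅, ?_, Or.inr rfl, fun o _ => rfl, ?_⟩
    · have h1 : (s.map fun i => affL (A i)).prod = fun o =>
          (fun z : Fin r → K => (s.map fun i => ∑ m : b, c i m * z (e m) + (A i).2).prod)
            (fun j => affL (((e.symm j : b) : ι → K), (0 : K)) o) := by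
        funext o
        rw [Pi.list_prod_apply, List.map_map]
        simp only
        congr 1
        refine List.map_congr_left fun i hi => ?_
        simp only [Function.comp_apply]
        rw [affL_split]
        congr 1
        have h2 := hc i hi
        have h3 : affL ((A i).1, (0 : K)) =
            ∑ m : b, c i m • affL (((m : b) : ι → K), (0 : K)) := by
          rw [← h2]
          have h4 : ((∑ m : b, c i m • (m : ι → K)), (0 : K)) =
              ∑ m : b, c i m • (((m : b) : ι → K), (0 : K)) := by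
            rw [Prod.ext_iff]
            constructor
            · simp [Prod.fst_sum]
            · simp [Prod.snd_sum]
          rw [h4, map_sum]
          simp only [map_smul]
        rw [h3, Finset.sum_apply]
        refine Finset.sum_congr rfl fun m _ => ?_
        rw [Pi.smul_apply, smul_eq_mul, Equiv.symm_apply_apply]
      rw [h1]
      refine (omFilt K ι).mono (Nat.mul_le_mul_left _ hcard.le) ?_
      exact filt_comp (omFilt K ι) (fun j => affL (((e.symm j : b) : ι → K), (0 : K)))
        (fun j => affL_mem _)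
        (fun z : Fin r → K => (s.map fun i => ∑ m : b, c i m * z (e m) + (A i).2).prod)
    · rw [Finset.card_empty, Nat.cast_zero]
      positivity

end Aff

theorem list_sum_apply' {K Ω α : Type} [Field K] (s : List α) (f : α → Ω → K) (o : Ω) :
    (s.map f).sum o = (s.map fun i => f i o).sum := by
  rw [Pi.list_sum_apply, List.map_map]
  rfl

theorem list_prod_apply' {K Ω α : Type} [Field K] (s : List α) (f : α → Ω → K) (o : Ω) :
    (s.map f).prod o = (s.map fun i => f i o).prod := by
  rw [Pi.list_prod_apply, List.map_map]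
  rfl

/-- MODULE Layer. -/
theorem circuit_approx {K : Type} [Field K] [Fintype K] [DecidableEq K] {ι : Type} [Fintype ι]
    [DecidableEq ι] {V : Type} (C : Circ K V) (n t l W : ℕ) (ht : 1 ≤ t) (hC : HomogDeg C n)
    (hW : 2 * W ≤ n / ((Fintype.card K - 1) * t) + 1) (x : V → (ι → K) × K) :
    ∃ g ∈ (omFilt K ι).L ((Fintype.card K - 1) ^ 2 * (l + 2 * W + 1) *
        (2 * ((Fintype.card K - 1) * t))),
      ((univ.filter fun o : Om K ι =>
        C.val (fun v o => ∑ k, (x v).1 k * pt o k + (x v).2 : V → Om K ι → K) o ≠ g o).card : ℝ) ≤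
        C.size * ((1 - 1 / (2 * (Fintype.card K : ℝ) - 2)) ^ t + (1 / (Fintype.card K : ℝ)) ^ l +
          2 * ((Fintype.card K : ℝ) - 1) *
            Real.exp (-(W : ℝ) ^ 2 / (n / ((Fintype.card K - 1) * t) + 1 : ℕ))) *
          Fintype.card (Om K ι) := by
  obtain ⟨d0, d1, d2, d3, d4, h0, h1, h2, h3, h4, h5⟩ := hC
  have hq : 1 ≤ Fintype.card K - 1 := by
    have := Fintype.one_lt_card (α := K)
    omega
  have hq2 : (2 : ℝ) ≤ Fintype.card K := by
    have := Fintype.one_lt_card (α := K)
    exact_mod_cast this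
  have hb0 : 0 ≤ 1 - 1 / (2 * (Fintype.card K : ℝ) - 2) := by
    have : 1 / (2 * (Fintype.card K : ℝ) - 2) ≤ 1 := by
      rw [div_le_one (by linarith)]
      linarith
    linarith
  set Φ := omFilt K ι with hΦ
  set D := (Fintype.card K - 1) * t with hD
  have hD1 : 1 ≤ D := Nat.mul_pos hq ht
  set X : V → Om K ι → K := fun v o => ∑ k, (x v).1 k * pt o k + (x v).2 with hX
  set lf : Fin C.n0 → (ι → K) × K := fun i => match C.leaf i with
    | .inl a => x a
    | .inr c => (0, c) with hlf
  have hv0 : ∀ i, C.v0 X i = affL (lf i) := by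
    intro i
    rw [hlf]
    unfold Circ.v0
    cases hi : C.leaf i with
    | inl a => simp only [hi]; rfl
    | inr c =>
      simp only [hi]
      funext o
      simp [affL_apply]
  set A : Fin C.n1 → (ι → K) × K := fun i => ((C.sum1 i).map fun p => p.1 • lf p.2).sum with hA
  have hv1 : ∀ i, C.v1 X i = affL (A i) := by
    intro i
    rw [hA]
    unfold Circ.v1
    rw [map_list_sum, List.map_map]
    congr 1
    refine List.map_congr_left fun p _ => ?_
    rw [Function.comp_apply, map_smul, hv0]
  have hd0 : ∀ i, C.v0 X i ∈ Φ.L (d0 i) := by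
    intro i
    rcases h0 i with ⟨a, ha, hd⟩ | ⟨c, hc, hd⟩
    · rw [hd, hv0]; exact affL_mem _
    · rw [hd]
      unfold Circ.v0
      rw [hc]
      have : (algebraMap K (Om K ι → K) c) = c • (1 : Om K ι → K) :=
        Algebra.algebraMap_eq_smul_one c
      simp only [this]
      exact Φ.const_mem c 0
  have hd1 : ∀ i, C.v1 X i ∈ Φ.L (d1 i) := by
    intro i
    unfold Circ.v1
    refine Φ.list_sum_mem _ _ _ fun p hp => Submodule.smul_mem _ _ ?_
    rw [← h1 i p hp]
    exact hd0 _
  have hd2 : ∀ i, C.v2 X i ∈ Φ.L (d2 i) := by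
    intro i
    unfold Circ.v2
    rw [h2 i]
    exact Φ.list_prod_mem _ _ _ fun j _ => hd1 j
  have hv2 : ∀ i, C.v2 X i = ((C.prod2 i).map fun j => affL (A j)).prod := by
    intro i
    unfold Circ.v2
    congr 1
    exact List.map_congr_left fun j _ => hv1 j
  choose H E hH1 hH2 hH3 hE using fun i => layer_gate (K := K) (C.prod2 i) A t
  have hHmin : ∀ i, H i ∈ Φ.L (min (d2 i) D) := by
    intro i
    rcases le_total (d2 i) D with h | h
    · rw [min_eq_left h]
      rcases hH2 i with h6 | h6
      · rw [h6]; exact Submodule.zero_mem _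
      · rw [h6, ← hv2]; exact hd2 i
    · rw [min_eq_right h]; exact hH1 i
  set M : Fin C.n3 → Om K ι → K := fun j => ((C.sum3 j).map fun p => p.1 • H p.2).sum with hM
  have hMd : ∀ j, M j ∈ Φ.L (min (d3 j) D) := by
    intro j
    refine Φ.list_sum_mem _ _ _ fun p hp => Submodule.smul_mem _ _ ?_
    rw [← h3 j p hp]
    exact hHmin _
  set Etot : Finset (Om K ι) := Finset.univ.biUnion E with hEtot
  have hMv : ∀ j o, o ∉ Etot → C.v3 X j o = M j o := by
    intro j o ho
    have h7 : M j o = ((C.sum3 j).map fun p => p.1 • H p.2).sum o := rfl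
    rw [h7]
    unfold Circ.v3
    rw [list_sum_apply', list_sum_apply']
    congr 1
    refine List.map_congr_left fun p _ => ?_
    have h6 : C.v2 X p.2 o = H p.2 o := by
      rw [hv2]
      refine hH3 p.2 o fun h => ho ?_
      rw [hEtot, Finset.mem_biUnion]
      exact ⟨p.2, Finset.mem_univ _, h⟩
    simp only [Pi.smul_apply, h6]
  -- the upper product gates
  have htop : ∀ i : Fin C.n4, ∃ g ∈ Φ.L ((Fintype.card K - 1) ^ 2 * (l + 2 * W + 1) * (2 * D)),
      d4 i = n → ((univ.filter fun o => g o ≠ ((C.prod4 i).map M).prod o).card : ℝ) ≤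
        ((1 / (Fintype.card K : ℝ)) ^ l + 2 * ((Fintype.card K : ℝ) - 1) *
            Real.exp (-(W : ℝ) ^ 2 / (n / D + 1 : ℕ))) * Fintype.card (Om K ι) := by
    intro i
    by_cases hi : d4 i = n
    · have hsum : ((C.prod4 i).map fun j => min (d3 j) D).sum ≤ n := by
        rw [← hi, h4 i]
        exact List.sum_le_sum fun j _ => min_le_left _ _
      obtain ⟨F', hF1, hF2⟩ := layer_fin Φ D n hD1 (C.prod4 i) M (fun j => min (d3 j) D)
        (fun j _ => hMd j) (fun j _ => min_le_right _ _) hsum
      obtain ⟨g, hg1, hg2⟩ := prod_approx Φ F' (2 * D) hF2 l W hW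
      refine ⟨g, hg1, fun _ => ?_⟩
      have h6 : ∀ o, ∏ j, F' j o = ((C.prod4 i).map M).prod o := by
        intro o
        rw [← hF1, Finset.prod_apply]
      simp only [h6] at hg2
      exact hg2
    · exact ⟨0, Submodule.zero_mem _, fun h => absurd h hi⟩
  choose g hg1 hg2 using htop
  refine ⟨(C.out.map fun p => p.1 • g p.2).sum,
    Φ.list_sum_mem _ _ _ fun p _ => Submodule.smul_mem _ _ (hg1 p.2), ?_⟩
  set β : ℝ := (1 - 1 / (2 * (Fintype.card K : ℝ) - 2)) ^ t with hβ
  set γ : ℝ := (1 / (Fintype.card K : ℝ)) ^ l + 2 * ((Fintype.card K : ℝ) - 1) *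
            Real.exp (-(W : ℝ) ^ 2 / (n / D + 1 : ℕ)) with hγ
  have hβ0 : 0 ≤ β := pow_nonneg hb0 t
  have hγ0 : 0 ≤ γ := by
    have : 0 ≤ 2 * ((Fintype.card K : ℝ) - 1) := by linarith
    positivity
  -- the exceptional set
  set E4 : Fin C.n4 → Finset (Om K ι) := fun i =>
    if d4 i = n then univ.filter fun o => g i o ≠ ((C.prod4 i).map M).prod o else ∅ with hE4
  have hE4c : ∀ i, ((E4 i).card : ℝ) ≤ γ * Fintype.card (Om K ι) := by
    intro i
    by_cases hi : d4 i = n
    · simp only [hE4, if_pos hi]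
      exact hg2 i hi
    · simp only [hE4, if_neg hi, Finset.card_empty, Nat.cast_zero]
      positivity
  have hsub : (univ.filter fun o : Om K ι => C.val X o ≠
      (C.out.map fun p => p.1 • g p.2).sum o) ⊆ Etot ∪ Finset.univ.biUnion E4 := by
    intro o ho
    rw [Finset.mem_filter] at ho
    by_contra hno
    apply ho.2
    rw [Finset.mem_union, not_or] at hno
    unfold Circ.val
    rw [list_sum_apply', list_sum_apply']
    congr 1
    refine List.map_congr_left fun p hp => ?_
    have h6 : C.v4 X p.2 o = ((C.prod4 p.2).map M).prod o := by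
      unfold Circ.v4
      rw [list_prod_apply', list_prod_apply']
      congr 1
      exact List.map_congr_left fun j _ => hMv j o hno.1
    have h7 : g p.2 o = ((C.prod4 p.2).map M).prod o := by
      by_contra h8
      apply hno.2
      rw [Finset.mem_biUnion]
      refine ⟨p.2, Finset.mem_univ _, ?_⟩
      simp only [hE4, if_pos (h5 p hp)]
      exact Finset.mem_filter.mpr ⟨Finset.mem_univ _, h8⟩
    simp only [Pi.smul_apply, h6, h7]
  have hc1 : (Etot.card : ℝ) ≤ C.n2 * (β * Fintype.card (Om K ι)) := by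
    have h6 : (Etot.card : ℝ) ≤ ∑ i : Fin C.n2, ((E i).card : ℝ) := by
      exact_mod_cast Finset.card_biUnion_le
    refine h6.trans ((Finset.sum_le_sum fun i _ => hE i).trans (le_of_eq ?_))
    rw [Finset.sum_const, Finset.card_univ, Fintype.card_fin, nsmul_eq_mul]
  have hc2 : ((Finset.univ.biUnion E4).card : ℝ) ≤ C.n4 * (γ * Fintype.card (Om K ι)) := by
    have h6 : ((Finset.univ.biUnion E4).card : ℝ) ≤ ∑ i : Fin C.n4, ((E4 i).card : ℝ) := by
      exact_mod_cast Finset.card_biUnion_le
    refine h6.trans ((Finset.sum_le_sum fun i _ => hE4c i).trans (le_of_eq ?_))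
    rw [Finset.sum_const, Finset.card_univ, Fintype.card_fin, nsmul_eq_mul]
  have hc3 : ((univ.filter fun o : Om K ι => C.val X o ≠
      (C.out.map fun p => p.1 • g p.2).sum o).card : ℝ) ≤
      C.n2 * (β * Fintype.card (Om K ι)) + C.n4 * (γ * Fintype.card (Om K ι)) := by
    have h6 := Finset.card_le_card hsub
    have h7 := Finset.card_union_le Etot (Finset.univ.biUnion E4)
    have h8 : ((univ.filter fun o : Om K ι => C.val X o ≠
      (C.out.map fun p => p.1 • g p.2).sum o).card : ℝ) ≤
      (Etot.card : ℝ) + ((Finset.univ.biUnion E4).card : ℝ) := by exact_mod_cast h6.trans h7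
    linarith
  refine hc3.trans ?_
  have hs2 : (C.n2 : ℝ) ≤ C.size := by
    have : C.n2 ≤ C.size := by unfold Circ.size; omega
    exact_mod_cast this
  have hs4 : (C.n4 : ℝ) ≤ C.size := by
    have : C.n4 ≤ C.size := by unfold Circ.size; omega
    exact_mod_cast this
  have hN : (0 : ℝ) ≤ Fintype.card (Om K ι) := Nat.cast_nonneg _
  have e1 : (C.n2 : ℝ) * (β * Fintype.card (Om K ι)) ≤ C.size * (β * Fintype.card (Om K ι)) :=
    mul_le_mul_of_nonneg_right hs2 (mul_nonneg hβ0 hN)
  have e2 : (C.n4 : ℝ) * (γ * Fintype.card (Om K ι)) ≤ C.size * (γ * Fintype.card (Om K ι)) :=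
    mul_le_mul_of_nonneg_right hs4 (mul_nonneg hγ0 hN)
  have e3 : (C.size : ℝ) * (β + (1 / (Fintype.card K : ℝ)) ^ l +
      2 * ((Fintype.card K : ℝ) - 1) * Real.exp (-(W : ℝ) ^ 2 / (n / D + 1 : ℕ))) *
      Fintype.card (Om K ι) = C.size * (β * Fintype.card (Om K ι)) +
        C.size * (γ * Fintype.card (Om K ι)) := by
    rw [hγ]; ring
  rw [e3]
  linarith

end P346Q
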