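import Vale.Agent.P346Q.Tails

/-!
# P346Q: superblocks
-/

namespace P346Q

open Finset

section

variable {ι : Type*} [Fintype ι] [DecidableEq ι]

theorem sum_signs_on (A : Finset ι) (x : ι → Bool) :
    ∑ i ∈ A, (if x i then (1 : ℤ) else -1) =
      2 * ((A.filter fun i => x i = true).card : ℤ) - A.card := by
  have h : ∀ i, (if x i then (1 : ℤ) else -1) = 2 * (if x i then 1 else 0) - 1 := by
    intro i; split_ifs <;> norm_num
  simp_rw [h]
  rw [Finset.sum_sub_distrib, ← Finset.mul_sum, Finset.card_filter]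
  push_cast
  simp

theorem sum_sq_signs_on (A : Finset ι) :
    ∑ x : ι → Bool, (2 * ((A.filter fun i => x i = true).card : ℤ) - A.card) ^ 2 =
      (A.card : ℤ) * 2 ^ Fintype.card ι := by
  simp_rw [← sum_signs_on, pow_two, Finset.sum_mul_sum]
  rw [Finset.sum_comm]
  have h : ∀ i ∈ A, ∑ x : ι → Bool, ∑ j ∈ A,
      (if x i then (1 : ℤ) else -1) * (if x j then 1 else -1) = 2 ^ Fintype.card ι := by
    intro i hi
    rw [Finset.sum_comm, Finset.sum_eq_single_of_mem i hi]
    · have : ∀ x : ι → Bool, (if x i then (1 : ℤ) else -1) * (if x i then 1 else -1) = 1 := by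
        intro x; split_ifs <;> norm_num
      simp [this]
    · intro j _ hj
      refine Finset.sum_involution (fun x _ => Function.update x j (!x j)) ?_ ?_ ?_ ?_
      · intro x _
        rw [Function.update_of_ne (Ne.symm hj), Function.update_self]
        cases x j <;> simp
      · intro x _ _ h
        have := congrFun h j
        simp at this
      · intro x _
        exact Finset.mem_univ _
      · intro x _
        funext k
        by_cases h : k = j
        · subst h; simp
        · simp [Function.update_of_ne h]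
  rw [Finset.sum_congr rfl h]
  simp

/-- Chebyshev's inequality for the weight on a subset of the coordinates. -/
theorem cheb_on (A : Finset ι) (T : ℕ) (S : Finset (ι → Bool))
    (hS : ∀ x ∈ S, (T : ℤ) ≤ (2 * ((A.filter fun i => x i = true).card : ℤ) - A.card) ^ 2) :
    S.card * T ≤ A.card * 2 ^ Fintype.card ι := by
  have h1 : ((S.card * T : ℕ) : ℤ) ≤ ((A.card * 2 ^ Fintype.card ι : ℕ) : ℤ) := by
    push_cast
    rw [← sum_sq_signs_on]
    calc (S.card : ℤ) * T = ∑ x ∈ S, (T : ℤ) := by simp
      _ ≤ ∑ x ∈ S, (2 * ((A.filter fun i => x i = true).card : ℤ) - A.card) ^ 2 :=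
          Finset.sum_le_sum hS
      _ ≤ ∑ x : ι → Bool, (2 * ((A.filter fun i => x i = true).card : ℤ) - A.card) ^ 2 :=
          Finset.sum_le_sum_of_subset_of_nonneg (Finset.subset_univ _)
            fun x _ _ => sq_nonneg _
  exact_mod_cast h1

theorem card_low_half (k : ℕ) (hk : Fintype.card ι = 2 * k) :
    2 ^ (2 * k) ≤ 2 * (univ.filter fun I : Finset ι => I.card ≤ k).card := by
  have h1 : (univ.filter fun I : Finset ι => ¬ I.card ≤ k).card ≤
      (univ.filter fun I : Finset ι => I.card ≤ k).card := by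
    apply Finset.card_le_card_of_injOn (fun I => Iᶜ)
    · intro I hI
      simp only [Finset.coe_filter, Finset.mem_univ, true_and, Set.mem_ofPred_eq] at hI ⊢
      rw [Finset.card_compl, hk]
      omega
    · intro I _ J _ h
      exact compl_injective h
  have h2 := Finset.card_filter_add_card_filter_not (s := (univ : Finset (Finset ι)))
    (fun I => I.card ≤ k)
  rw [Finset.card_univ, Fintype.card_finset, hk] at h2
  omega

theorem card_low_strip (k η : ℕ) (hk : Fintype.card ι = 2 * k) (hη : η ≤ k) :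
    (univ.filter fun I : Finset ι => I.card ≤ k).card ≤
      (univ.filter fun I : Finset ι => I.card ≤ k - η).card + η * Nat.centralBinom k := by
  have hsub : (univ.filter fun I : Finset ι => I.card ≤ k) ⊆
      (univ.filter fun I : Finset ι => I.card ≤ k - η) ∪
        (Finset.Ioc (k - η) k).biUnion (fun j => Finset.powersetCard j univ) := by
    intro I hI
    rw [Finset.mem_filter] at hI
    rw [Finset.mem_union, Finset.mem_filter, Finset.mem_biUnion]
    by_cases h : I.card ≤ k - η
    · exact Or.inl ⟨Finset.mem_univ _, h⟩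
    · refine Or.inr ⟨I.card, ?_, ?_⟩
      · rw [Finset.mem_Ioc]; omega
      · rw [Finset.mem_powersetCard]; exact ⟨Finset.subset_univ _, rfl⟩
  refine (Finset.card_le_card hsub).trans ((Finset.card_union_le _ _).trans ?_)
  apply Nat.add_le_add_left
  calc ((Finset.Ioc (k - η) k).biUnion (fun j => Finset.powersetCard j
        (univ : Finset ι))).card
      ≤ ∑ j ∈ Finset.Ioc (k - η) k, (Finset.powersetCard j (univ : Finset ι)).card :=
        Finset.card_biUnion_le
    _ ≤ ∑ _j ∈ Finset.Ioc (k - η) k, Nat.centralBinom k := by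
        refine Finset.sum_le_sum fun j _ => ?_
        rw [Finset.card_powersetCard, Finset.card_univ, hk]
        exact Nat.choose_le_centralBinom j k
    _ = η * Nat.centralBinom k := by
        rw [Finset.sum_const, smul_eq_mul, Nat.card_Ioc]
        congr 1
        omega

end

/-- The coordinates of a superblock: `g^2` blocks of `4 h^2` coordinates. -/
abbrev SB (g h : ℕ) : Type := Fin (g ^ 2) × Fin (4 * h ^ 2)

/-- The number of ones in block `j`. -/
def blk {g h : ℕ} (x : SB g h → Bool) (j : Fin (g ^ 2)) : ℕ :=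
  (univ.filter fun k : Fin (4 * h ^ 2) => x (j, k) = true).card

/-- The product of the windows. -/
def sWindow (g h : ℕ) : Finset (SB g h → Bool) :=
  univ.filter fun x => ∀ j, 2 * h ^ 2 ≤ blk x j + 4 * g * h ∧ blk x j ≤ 2 * h ^ 2 + 4 * g * h

theorem card_SB (g h : ℕ) : Fintype.card (SB g h) = 2 * (2 * (g * h) ^ 2) := by
  simp only [SB, Fintype.card_prod, Fintype.card_fin]
  ring

theorem card_sWindow_compl (g h : ℕ) (hg : 1 ≤ g) (hh : 1 ≤ h) :
    16 * ((sWindow g h)ᶜ).card ≤ 2 ^ Fintype.card (SB g h) := by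
  classical
  let Bd : Fin (g ^ 2) → Finset (SB g h → Bool) := fun j => univ.filter fun x =>
    ¬ (2 * h ^ 2 ≤ blk x j + 4 * g * h ∧ blk x j ≤ 2 * h ^ 2 + 4 * g * h)
  have hsub : (sWindow g h)ᶜ ⊆ univ.biUnion Bd := by
    intro x hx
    rw [Finset.mem_compl, sWindow, Finset.mem_filter] at hx
    rw [Finset.mem_biUnion]
    by_contra hcon
    push Not at hcon
    refine hx ⟨Finset.mem_univ _, fun j => ?_⟩
    have := hcon j (Finset.mem_univ _)
    simp only [Bd, Finset.mem_filter, Finset.mem_univ, true_and, not_not] at this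
    exact this
  have hBd : ∀ j, 16 * g ^ 2 * (Bd j).card ≤ 2 ^ Fintype.card (SB g h) := by
    intro j
    let A : Finset (SB g h) := univ.filter fun i => i.1 = j
    have hA : A.card = 4 * h ^ 2 := by
      have : A = (univ : Finset (Fin (4 * h ^ 2))).map
          ⟨fun k => (j, k), fun a b hab => (Prod.ext_iff.mp hab).2⟩ := by
        ext ⟨a, b⟩
        simp only [A, Finset.mem_filter, Finset.mem_univ, true_and, Finset.mem_map]
        constructor
        · rintro rfl; exact ⟨b, rfl⟩
        · rintro ⟨c, hc⟩; exact (Prod.ext_iff.mp hc).1.symm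
      rw [this, Finset.card_map, Finset.card_univ, Fintype.card_fin]
    have hblk : ∀ x : SB g h → Bool, (A.filter fun i => x i = true).card = blk x j := by
      intro x
      unfold blk
      have : (A.filter fun i => x i = true) =
          ((univ : Finset (Fin (4 * h ^ 2))).filter fun k => x (j, k) = true).map
          ⟨fun k => (j, k), fun a b hab => (Prod.ext_iff.mp hab).2⟩ := by
        ext ⟨a, b⟩
        simp only [A, Finset.mem_filter, Finset.mem_univ, true_and, Finset.mem_map]
        constructor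
        · rintro ⟨rfl, hx⟩; exact ⟨b, hx, rfl⟩
        · rintro ⟨c, hx, hc⟩
          have h1 : j = a := (Prod.ext_iff.mp hc).1
          have h2 : c = b := (Prod.ext_iff.mp hc).2
          subst h1; subst h2
          exact ⟨rfl, hx⟩
      rw [this, Finset.card_map]
    have h1 := cheb_on A (64 * g ^ 2 * h ^ 2) (Bd j) (by
      intro x hx
      simp only [Bd, Finset.mem_filter, Finset.mem_univ, true_and] at hx
      rw [hblk, hA]
      push_cast
      have h6 : (0 : ℤ) ≤ 8 * g * h := by positivity
      by_cases h2 : blk x j ≤ 2 * h ^ 2 + 4 * g * h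
      · have h3 : blk x j + 4 * g * h + 1 ≤ 2 * h ^ 2 := by
          by_contra hcon
          exact hx ⟨by omega, h2⟩
        have h4 : (blk x j : ℤ) + 4 * g * h + 1 ≤ 2 * h ^ 2 := by exact_mod_cast h3
        have h5 : (8 * g * h : ℤ) ≤ 4 * h ^ 2 - 2 * blk x j := by linarith
        nlinarith [mul_self_le_mul_self h6 h5]
      · have h3 : 2 * h ^ 2 + 4 * g * h ≤ blk x j := by omega
        have h4 : (2 : ℤ) * h ^ 2 + 4 * g * h ≤ blk x j := by exact_mod_cast h3
        have h5 : (8 * g * h : ℤ) ≤ 2 * blk x j - 4 * h ^ 2 := by linarith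
        nlinarith [mul_self_le_mul_self h6 h5])
    rw [hA] at h1
    have h7 : (4 * h ^ 2) * (16 * g ^ 2 * (Bd j).card) ≤
        (4 * h ^ 2) * 2 ^ Fintype.card (SB g h) := by
      calc (4 * h ^ 2) * (16 * g ^ 2 * (Bd j).card) = (Bd j).card * (64 * g ^ 2 * h ^ 2) := by ring
        _ ≤ _ := h1
    exact Nat.le_of_mul_le_mul_left h7 (by positivity)
  have h8 : g ^ 2 * (16 * ((sWindow g h)ᶜ).card) ≤ g ^ 2 * 2 ^ Fintype.card (SB g h) := by
    calc g ^ 2 * (16 * ((sWindow g h)ᶜ).card)
        ≤ g ^ 2 * (16 * ∑ j, (Bd j).card) := by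
          apply Nat.mul_le_mul_left
          apply Nat.mul_le_mul_left
          exact (Finset.card_le_card hsub).trans Finset.card_biUnion_le
      _ = ∑ j : Fin (g ^ 2), 16 * g ^ 2 * (Bd j).card := by
          rw [Finset.mul_sum, Finset.mul_sum]
          exact Finset.sum_congr rfl fun j _ => by ring
      _ ≤ ∑ _j : Fin (g ^ 2), 2 ^ Fintype.card (SB g h) := Finset.sum_le_sum fun j _ => hBd j
      _ = _ := by simp
  exact Nat.le_of_mul_le_mul_left h8 (by positivity)

theorem super_exists (L : Type*) [Field L] (g h η : ℕ) (hg : 1 ≤ g) (hh : 1 ≤ h)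
    (hη : 2 * η ≤ g * h) :
    ∃ (z : ℕ) (φ : Fin z → (SB g h → Bool) → L) (pt : Fin z → SB g h → Bool),
      (∀ i, φ i ∈ Low L (2 * (g * h) ^ 2 - η)) ∧ (∀ i x, x ∉ sWindow g h → φ i x = 0) ∧
      (∀ i j, φ i (pt j) = if i = j then 1 else 0) ∧ 2 ^ Fintype.card (SB g h) ≤ 8 * z := by
  have hgh : 1 ≤ g * h := Nat.mul_pos hg hh
  obtain ⟨φ, pt, hφ, hpt⟩ := exists_interp
    (Module.finrank L (LowOn L (2 * (g * h) ^ 2 - η) (sWindow g h)))
    (LowOn L (2 * (g * h) ^ 2 - η) (sWindow g h)) le_rfl
  refine ⟨_, φ, pt, fun i => (hφ i).1, fun i x hx => (hφ i).2 x hx, hpt, ?_⟩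
  have h1 := finrank_lowOn (L := L) (2 * (g * h) ^ 2 - η) (sWindow g h)
  have h2 := card_sWindow_compl g h hg hh
  have h3 := card_low_half (2 * (g * h) ^ 2) (card_SB g h)
  have hηk : η ≤ 2 * (g * h) ^ 2 := by nlinarith
  have h4 := card_low_strip (2 * (g * h) ^ 2) η (card_SB g h) hηk
  rw [← card_SB] at h3
  have h5 := central_bound (2 * (g * h) ^ 2)
  have h6 : 2 * (g * h) * Nat.centralBinom (2 * (g * h) ^ 2) ≤ 2 ^ Fintype.card (SB g h) := by
    have h7 : (2 * (g * h) * Nat.centralBinom (2 * (g * h) ^ 2)) ^ 2 ≤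
        (2 ^ Fintype.card (SB g h)) ^ 2 := by
      calc (2 * (g * h) * Nat.centralBinom (2 * (g * h) ^ 2)) ^ 2
          = (4 * (g * h) ^ 2) * (Nat.centralBinom (2 * (g * h) ^ 2)) ^ 2 := by ring
        _ ≤ (2 * (2 * (g * h) ^ 2) + 1) * (Nat.centralBinom (2 * (g * h) ^ 2)) ^ 2 := by
            apply Nat.mul_le_mul_right; omega
        _ ≤ 2 ^ (4 * (2 * (g * h) ^ 2)) := h5
        _ = (2 ^ Fintype.card (SB g h)) ^ 2 := by rw [card_SB, ← pow_mul]; congr 1; ring
    exact (Nat.pow_le_pow_iff_left (by norm_num)).mp h7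
  have h8 : 4 * (η * Nat.centralBinom (2 * (g * h) ^ 2)) ≤ 2 ^ Fintype.card (SB g h) := by
    calc 4 * (η * Nat.centralBinom (2 * (g * h) ^ 2)) =
          2 * (2 * η) * Nat.centralBinom (2 * (g * h) ^ 2) := by ring
      _ ≤ 2 * (g * h) * Nat.centralBinom (2 * (g * h) ^ 2) := by
          apply Nat.mul_le_mul_right; omega
      _ ≤ _ := h6
  omega

end P346Q
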