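import Vale.Agent.P346Q.ABP2
import Vale.Agent.P346Q.Layer
import Vale.Agent.P346Q.Deg
import Vale.Agent.P346Q.Coef
import Vale.Agent.P346Q.Core2
import Vale.Agent.P346Q.Super
import Vale.Agent.P346.Main

/-!
# P346Q: the main inequality
-/

namespace P346Q

open Finset P346 MvPolynomial

theorem val_eq_aeval {K V : Type} [CommRing K] (C : Circ K V) {R : Type} [CommRing R]
    [Algebra K R] (x : V → R) : C.val x = aeval x C.poly := by
  have h := map_val C (aeval x : MvPolynomial V K →ₐ[K] R) X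
  rw [Circ.poly, h]
  simp

/-- composition with the map of points -/
def compPt (K ι : Type) [Field K] : ((ι → K) → K) →ₐ[K] (Om K ι → K) where
  toFun f := fun o => f (pt o)
  map_one' := rfl
  map_mul' _ _ := rfl
  map_zero' := rfl
  map_add' _ _ := rfl
  commutes' _ := rfl

theorem exists_ne_zero_ne_one {K : Type} [Field K] [Fintype K] [DecidableEq K]
    (hq : 3 ≤ Fintype.card K) : ∃ w : K, w ≠ 0 ∧ w ≠ 1 := by
  by_contra hcon
  push Not at hcon
  have h : (univ : Finset K) ⊆ {0, 1} := by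
    intro w _
    rw [Finset.mem_insert, Finset.mem_singleton]
    by_cases hw : w = 0
    · exact Or.inl hw
    · exact Or.inr (hcon w hw)
  have h1 := Finset.card_le_card h
  have h2 : ({0, 1} : Finset K).card ≤ 2 := Finset.card_le_two
  rw [Finset.card_univ] at h1
  omega

/-- the identification of the coordinates -/
def reidx (R g h : ℕ) : Fin R × SB g h ≃ Fin (R * g ^ 2) × Fin (4 * h ^ 2) :=
  (Equiv.prodAssoc (Fin R) (Fin (g ^ 2)) (Fin (4 * h ^ 2))).symm.trans
    (Equiv.prodCongr finProdFinEquiv (Equiv.refl _))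

theorem reidx_apply (R g h : ℕ) (r : Fin R) (j : Fin (g ^ 2)) (k : Fin (4 * h ^ 2)) :
    reidx R g h (r, (j, k)) = (finProdFinEquiv (r, j), k) := rfl

theorem gadget_value {K : Type} [Field K] [DecidableEq K] (w : K) (hw0 : w ≠ 0) {R g h : ℕ}
    (a : ℕ → K) (ha : ∀ v, 2 * h ^ 2 - 4 * g * h ≤ v → v ≤ 2 * h ^ 2 - 4 * g * h + 8 * g * h →
      tauN a (8 * g * h) v = w⁻¹ ^ v)
    (y : Fin (R * g ^ 2) × Fin (4 * h ^ 2) → Kˣ) (x : Fin R × SB g h → Bool)
    (hx : ∀ b, (fun i => x (b, i)) ∈ sWindow g h) :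
    w ^ (R * g ^ 2 * (4 * h ^ 2)) * ∏ c : Fin (R * g ^ 2), tau a (8 * g * h)
      (fun k => pt ((y, fun i => x ((reidx R g h).symm i)) : Om K _) (c, k)) =
      ∏ i, (if x i then w else 1) := by
  have h1 : ∏ i : Fin R × SB g h, (if x i then w else 1) =
      ∏ c : Fin (R * g ^ 2), w ^ (blk (fun i => x ((finProdFinEquiv.symm c).1, i))
        (finProdFinEquiv.symm c).2) := by
    rw [Fintype.prod_prod_type]
    rw [← finProdFinEquiv.prod_comp, Fintype.prod_prod_type]
    refine Finset.prod_congr rfl fun r _ => ?_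
    rw [Fintype.prod_prod_type]
    refine Finset.prod_congr rfl fun j _ => ?_
    rw [Equiv.symm_apply_apply]
    unfold blk
    rw [Finset.prod_ite, Finset.prod_const, Finset.prod_const_one, mul_one]
  rw [h1]
  have h2 : w ^ (R * g ^ 2 * (4 * h ^ 2)) = ∏ _c : Fin (R * g ^ 2), w ^ (4 * h ^ 2) := by
    rw [Finset.prod_const, Finset.card_univ, Fintype.card_fin, ← pow_mul, mul_comm (4 * h ^ 2)]
  rw [h2, ← Finset.prod_mul_distrib]
  refine Finset.prod_congr rfl fun c _ => ?_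
  obtain ⟨⟨r, j⟩, rfl⟩ := finProdFinEquiv.surjective c
  rw [Equiv.symm_apply_apply]
  have hsym : ∀ k, (reidx R g h).symm (finProdFinEquiv (r, j), k) = (r, (j, k)) := by
    intro k
    rw [Equiv.symm_apply_eq, reidx_apply]
  have hpt0 : ∀ k, pt ((y, fun i => x ((reidx R g h).symm i)) : Om K _)
      (finProdFinEquiv (r, j), k) = 0 ↔ ¬ x (r, (j, k)) = true := by
    intro k
    simp only [pt, hsym]
    cases x (r, (j, k)) <;> simp
  obtain ⟨z, hz⟩ : ∃ z, z = (univ.filter fun k : Fin (4 * h ^ 2) =>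
      pt ((y, fun i => x ((reidx R g h).symm i)) : Om K _) (finProdFinEquiv (r, j), k) = 0).card :=
    ⟨_, rfl⟩
  have h3 : z + blk (fun i => x (r, i)) j = 4 * h ^ 2 := by
    rw [hz, Finset.filter_congr fun k _ => hpt0 k]
    unfold blk
    rw [add_comm, Finset.card_filter_add_card_filter_not]
    simp
  have h5 := hx r
  rw [sWindow, Finset.mem_filter] at h5
  obtain ⟨h6, h7⟩ := h5.2 j
  have h8 : tau a (8 * g * h) (fun k =>
      pt ((y, fun i => x ((reidx R g h).symm i)) : Om K _) (finProdFinEquiv (r, j), k)) =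
      w⁻¹ ^ z := by
    unfold tau
    rw [← hz]
    have h9 : 8 * g * h = 2 * (4 * g * h) := by ring
    rw [h9] at ha ⊢
    exact ha _ (by omega) (by omega)
  rw [h8, ← h3, pow_add, inv_pow]
  have : w ^ z ≠ 0 := pow_ne_zero _ hw0
  field_simp

theorem key {K : Type} [Field K] [Fintype K] [DecidableEq K] (hq : 3 ≤ Fintype.card K) {n : ℕ}
    [NeZero n] (C : Circ K (Fin n × Fin n × Fin n)) (hC : C.Homog) (hp : C.poly = IMM K n n)
    (g h η R t l W : ℕ) (hg : 1 ≤ g) (hh : 1 ≤ h) (hη : 2 * η ≤ g * h) (ht : 1 ≤ t)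
    (hW : 2 * W ≤ n / ((Fintype.card K - 1) * t) + 1) (hw : 4 * h ^ 2 + 2 ≤ n)
    (hl : R * g ^ 2 * ((Fintype.card K - 1) * (8 * g * h + 1)) + 2 ≤ n)
    (hΔ : (Fintype.card K - 1) ^ 2 * (l + 2 * W + 1) * (2 * ((Fintype.card K - 1) * t)) < R * η) :
    1 ≤ (C.size : ℝ) * ((1 - 1 / (2 * (Fintype.card K : ℝ) - 2)) ^ t +
      (1 / (Fintype.card K : ℝ)) ^ l + 2 * ((Fintype.card K : ℝ) - 1) *
        Real.exp (-(W : ℝ) ^ 2 / (n / ((Fintype.card K - 1) * t) + 1 : ℕ))) * 8 ^ R := by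
  classical
  obtain ⟨w, hw0, hw1⟩ := exists_ne_zero_ne_one (K := K) hq
  obtain ⟨a, ha⟩ := exists_window_coef (w⁻¹) (2 * h ^ 2 - 4 * g * h) (8 * g * h)
  obtain ⟨x, hx⟩ := abp2_exists (p := R * g ^ 2) (m := 4 * h ^ 2) (8 * g * h) a hw hl
  have hHD := homogDeg_of_imm C hC hp
  obtain ⟨f, hf, herr⟩ := circuit_approx C n t l W ht hHD hW x
  set err : ℝ := ((1 - 1 / (2 * (Fintype.card K : ℝ) - 2)) ^ t +
      (1 / (Fintype.card K : ℝ)) ^ l + 2 * ((Fintype.card K : ℝ) - 1) *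
        Real.exp (-(W : ℝ) ^ 2 / (n / ((Fintype.card K - 1) * t) + 1 : ℕ))) with herrdef
  have hval : C.val (fun v o => ∑ k, (x v).1 k * pt o k + (x v).2 :
      Fin n × Fin n × Fin n → Om K (Fin (R * g ^ 2) × Fin (4 * h ^ 2)) → K) =
      fun o => ∏ b, tau a (8 * g * h) (fun k => pt o (b, k)) := by
    have h1 := map_val C (compPt K (Fin (R * g ^ 2) × Fin (4 * h ^ 2)))
      (fun v => fun y => ∑ k, (x v).1 k * y k + (x v).2)
    have h2 : C.val (fun v o => ∑ k, (x v).1 k * pt o k + (x v).2 :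
      Fin n × Fin n × Fin n → Om K (Fin (R * g ^ 2) × Fin (4 * h ^ 2)) → K) =
      compPt K (Fin (R * g ^ 2) × Fin (4 * h ^ 2))
      (C.val (fun v => fun y => ∑ k, (x v).1 k * y k + (x v).2)) := h1.symm
    rw [h2, val_eq_aeval, hp, hx]
    rfl
  rw [hval] at herr
  set F : Om K (Fin (R * g ^ 2) × Fin (4 * h ^ 2)) → K :=
    fun o => ∏ b, tau a (8 * g * h) (fun k => pt o (b, k)) with hF
  -- a good vector of multipliers
  set N := Fintype.card (Fin (R * g ^ 2) × Fin (4 * h ^ 2)) with hN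
  obtain ⟨y, hy⟩ : ∃ y : Fin (R * g ^ 2) × Fin (4 * h ^ 2) → Kˣ,
      ((univ.filter fun b : Fin (R * g ^ 2) × Fin (4 * h ^ 2) → Bool =>
        F (y, b) ≠ f (y, b)).card : ℝ) ≤ C.size * err * 2 ^ N := by
    have h1 : ((univ.filter fun o : Om K (Fin (R * g ^ 2) × Fin (4 * h ^ 2)) =>
        F o ≠ f o).card : ℝ) = ∑ y : Fin (R * g ^ 2) × Fin (4 * h ^ 2) → Kˣ,
        ((univ.filter fun b : Fin (R * g ^ 2) × Fin (4 * h ^ 2) → Bool =>
          F (y, b) ≠ f (y, b)).card : ℝ) := by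
      rw [Finset.card_filter, Fintype.sum_prod_type]
      push_cast
      refine Finset.sum_congr rfl fun y _ => ?_
      rw [Finset.card_filter]
      push_cast
      rfl
    have h2 : ∑ y : Fin (R * g ^ 2) × Fin (4 * h ^ 2) → Kˣ,
        ((univ.filter fun b : Fin (R * g ^ 2) × Fin (4 * h ^ 2) → Bool =>
          F (y, b) ≠ f (y, b)).card : ℝ) ≤
        ∑ _y : Fin (R * g ^ 2) × Fin (4 * h ^ 2) → Kˣ, (C.size * err * 2 ^ N : ℝ) := by
      rw [← h1]
      refine herr.trans (le_of_eq ?_)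
      rw [Finset.sum_const, Finset.card_univ, nsmul_eq_mul]
      rw [Fintype.card_prod]
      have : Fintype.card (Fin (R * g ^ 2) × Fin (4 * h ^ 2) → Bool) = 2 ^ N := by
        rw [Fintype.card_fun, Fintype.card_bool]
      rw [this]
      push_cast
      ring
    obtain ⟨y, _, hy⟩ := Finset.exists_le_of_sum_le Finset.univ_nonempty h2
    exact ⟨y, hy⟩
  -- the exceptional set
  let e := reidx R g h
  let E : Finset (Fin R × SB g h → Bool) := univ.filter fun x =>
    F (y, fun i => x (e.symm i)) ≠ f (y, fun i => x (e.symm i))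
  have hE : E.card ≤ (univ.filter fun b : Fin (R * g ^ 2) × Fin (4 * h ^ 2) → Bool =>
        F (y, b) ≠ f (y, b)).card := by
    apply Finset.card_le_card_of_injOn (fun x => fun i => x (e.symm i))
    · intro x hx
      rw [Finset.mem_coe, Finset.mem_filter] at hx ⊢
      exact ⟨Finset.mem_univ _, hx.2⟩
    · intro x _ x' _ hxx
      funext i
      have := congrFun hxx (e i)
      simpa using this
  obtain ⟨z, φ, pts, hφ, hsupp, hpt, hz⟩ := super_exists K g h η hg hh hη
  have hcore := core w hw0 hw1 (R := R) (Δ := (Fintype.card K - 1) ^ 2 * (l + 2 * W + 1) *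
      (2 * ((Fintype.card K - 1) * t))) (sWindow g h) φ hφ hsupp pts hpt
    (fun x => w ^ (R * g ^ 2 * (4 * h ^ 2)) * f (y, fun i => x (e.symm i))) (by
      have h1 := comp_mem_low (K := K) (fun i => e.symm i) (hf y)
      exact Submodule.smul_mem _ (w ^ (R * g ^ 2 * (4 * h ^ 2))) h1) E (by
      intro x hx hxW
      have h1 : F (y, fun i => x (e.symm i)) = f (y, fun i => x (e.symm i)) := by
        by_contra hcon
        exact hx (Finset.mem_filter.mpr ⟨Finset.mem_univ _, hcon⟩)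
      rw [← h1]
      exact gadget_value w hw0 a ha y x hxW) (by
      rw [card_SB]
      have hηk : η ≤ 2 * (g * h) ^ 2 := by
        have : 1 ≤ g * h := Nat.mul_pos hg hh
        nlinarith
      obtain ⟨s, hs⟩ := Nat.exists_eq_add_of_le hηk
      have h2 : R * (2 * (2 * (g * h) ^ 2)) / 2 = R * (2 * (g * h) ^ 2) := by
        rw [show R * (2 * (2 * (g * h) ^ 2)) = 2 * (R * (2 * (g * h) ^ 2)) by ring]
        exact Nat.mul_div_cancel_left _ (by norm_num)
      rw [h2, hs, Nat.add_sub_cancel_left]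
      nlinarith)
  -- conclusion
  have hzpos : 1 ≤ z := by
    have : 1 ≤ 2 ^ Fintype.card (SB g h) := Nat.one_le_two_pow
    omega
  have h1 : (2 : ℝ) ^ N ≤ 8 ^ R * (z : ℝ) ^ R := by
    have h2 : 2 ^ N ≤ (8 * z) ^ R := by
      have h3 : N = Fintype.card (SB g h) * R := by
        rw [hN, ← Fintype.card_congr (reidx R g h), Fintype.card_prod, Fintype.card_fin, mul_comm]
      rw [h3, pow_mul]
      exact Nat.pow_le_pow_left hz R
    rw [← mul_pow]
    exact_mod_cast h2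
  have h2 : (z : ℝ) ^ R ≤ C.size * err * 2 ^ N := by
    calc (z : ℝ) ^ R ≤ (E.card : ℝ) := by exact_mod_cast hcore
      _ ≤ _ := by exact_mod_cast hE
      _ ≤ _ := hy
  have hzR : (0 : ℝ) < (z : ℝ) ^ R := by
    have : (0 : ℝ) < z := by exact_mod_cast hzpos
    positivity
  have h2N : (0 : ℝ) < (2 : ℝ) ^ N := by positivity
  have hse : 0 ≤ (C.size : ℝ) * err := by
    by_contra hcon
    push Not at hcon
    have : (C.size : ℝ) * err * 2 ^ N < 0 := mul_neg_of_neg_of_pos hcon h2N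
    linarith
  have h3 : (z : ℝ) ^ R ≤ C.size * err * (8 ^ R * (z : ℝ) ^ R) :=
    h2.trans (mul_le_mul_of_nonneg_left h1 hse)
  have h4 : 1 * (z : ℝ) ^ R ≤ (C.size * err * 8 ^ R) * (z : ℝ) ^ R := by
    calc 1 * (z : ℝ) ^ R = (z : ℝ) ^ R := one_mul _
      _ ≤ _ := h3
      _ = _ := by ring
  exact le_of_mul_le_mul_right h4 hzR

end P346Q
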