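import Vale.Agent.P346Q.Interp

/-!
# P346Q: tail bounds and anticoncentration for the binomial distribution
-/

namespace P346Q

open Finset

/-- transfer between Boolean functions and sets -/
theorem card_bool_eq_card_set {ι : Type} [Fintype ι] [DecidableEq ι] (p : ℕ → Prop)
    [DecidablePred p] :
    (univ.filter fun x : ι → Bool => p (univ.filter fun k => x k = true).card).card =
      (univ.filter fun I : Finset ι => p I.card).card := by
  apply Finset.card_bij (fun x _ => univ.filter fun k => x k = true)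
  · intro x hx
    rw [Finset.mem_filter] at hx ⊢
    exact ⟨Finset.mem_univ _, hx.2⟩
  · intro x _ y _ h
    funext k
    have := congrArg (fun s : Finset ι => decide (k ∈ s)) h
    simpa using this
  · intro I hI
    rw [Finset.mem_filter] at hI
    have e : (univ.filter fun k => decide (k ∈ I) = true) = I := by
      ext k; simp
    refine ⟨fun k => decide (k ∈ I), ?_, e⟩
    rw [Finset.mem_filter]
    refine ⟨Finset.mem_univ _, ?_⟩
    rw [e]
    exact hI.2

theorem exp_moment {ι : Type} [Fintype ι] [DecidableEq ι] (s : ℝ) :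
    ∑ I : Finset ι, Real.exp (s * (Fintype.card ι - 2 * I.card)) ≤
      2 ^ Fintype.card ι * Real.exp (s ^ 2 / 2 * Fintype.card ι) := by
  have h1 : ∀ I : Finset ι, Real.exp (s * (Fintype.card ι - 2 * I.card)) =
      Real.exp (-s) ^ I.card * Real.exp s ^ (Fintype.card ι - I.card) := by
    intro I
    rw [← Real.exp_nat_mul, ← Real.exp_nat_mul, ← Real.exp_add]
    congr 1
    have hI : I.card ≤ Fintype.card ι := Finset.card_le_univ I
    rw [Nat.cast_sub hI]
    ring
  simp_rw [h1]
  rw [Fintype.sum_pow_mul_eq_add_pow]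
  have h2 : Real.exp (-s) + Real.exp s ≤ 2 * Real.exp (s ^ 2 / 2) := by
    have := Real.cosh_le_exp_half_sq s
    rw [Real.cosh_eq] at this
    linarith
  calc (Real.exp (-s) + Real.exp s) ^ Fintype.card ι
      ≤ (2 * Real.exp (s ^ 2 / 2)) ^ Fintype.card ι :=
        pow_le_pow_left₀ (by positivity) h2 _
    _ = 2 ^ Fintype.card ι * Real.exp (s ^ 2 / 2 * Fintype.card ι) := by
        rw [mul_pow, ← Real.exp_nat_mul]
        congr 2
        ring

/-- lower tail -/
theorem card_set_tail {ι : Type} [Fintype ι] [DecidableEq ι] (y : ℝ) (hy : 0 ≤ y)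
    (T : Finset (Finset ι)) (hT : ∀ I ∈ T, y ≤ (Fintype.card ι : ℝ) - 2 * I.card) :
    (T.card : ℝ) ≤ 2 ^ Fintype.card ι * Real.exp (-y ^ 2 / (2 * Fintype.card ι)) := by
  rcases Nat.eq_zero_or_pos (Fintype.card ι) with h0 | h0
  · rw [h0]
    have h1 : T.card ≤ Fintype.card (Finset ι) := Finset.card_le_univ T
    rw [Fintype.card_finset, h0, pow_zero] at h1
    have : (T.card : ℝ) ≤ 1 := by exact_mod_cast h1
    simpa using this
  · have hN : (0 : ℝ) < Fintype.card ι := by exact_mod_cast h0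
    set N : ℝ := (Fintype.card ι : ℝ) with hNdef
    set s : ℝ := y / N with hs
    have hs0 : 0 ≤ s := div_nonneg hy hN.le
    have h1 : (T.card : ℝ) * Real.exp (s * y) ≤ 2 ^ Fintype.card ι * Real.exp (s ^ 2 / 2 * N) := by
      calc (T.card : ℝ) * Real.exp (s * y) = ∑ I ∈ T, Real.exp (s * y) := by
            rw [Finset.sum_const, nsmul_eq_mul]
        _ ≤ ∑ I ∈ T, Real.exp (s * (N - 2 * I.card)) := by
            refine Finset.sum_le_sum fun I hI => Real.exp_le_exp.mpr ?_
            exact mul_le_mul_of_nonneg_left (hT I hI) hs0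
        _ ≤ ∑ I : Finset ι, Real.exp (s * (N - 2 * I.card)) :=
            Finset.sum_le_sum_of_subset_of_nonneg (Finset.subset_univ _)
              fun I _ _ => (Real.exp_pos _).le
        _ ≤ _ := exp_moment s
    have h2 : (T.card : ℝ) ≤ 2 ^ Fintype.card ι * Real.exp (s ^ 2 / 2 * N) *
        Real.exp (-(s * y)) := by
      rw [Real.exp_neg]
      rw [← div_eq_mul_inv, le_div_iff₀ (Real.exp_pos _)]
      exact h1
    rw [mul_assoc, ← Real.exp_add] at h2
    have h3 : s ^ 2 / 2 * N + -(s * y) = -y ^ 2 / (2 * N) := by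
      rw [hs]
      field_simp
      ring
    rwa [h3] at h2

/-- `∑_x exp(s (2 wt x - m)) = (2 cosh s)^m ≤ 2^m exp(s^2 m / 2)` gives the tail bound. -/
theorem card_wt_tail (m y : ℕ) :
    ((univ.filter fun x : Fin m → Bool => (y : ℤ) < |2 * ((univ.filter fun k => x k = true).card : ℤ)
      - m|).card : ℝ) ≤ 2 * Real.exp (-(y : ℝ) ^ 2 / (2 * m)) * 2 ^ m := by
  rw [card_bool_eq_card_set (fun v => (y : ℤ) < |2 * (v : ℤ) - m|)]
  have hsub : (univ.filter fun I : Finset (Fin m) => (y : ℤ) < |2 * (I.card : ℤ) - m|) ⊆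
      (univ.filter fun I : Finset (Fin m) => 2 * I.card + y ≤ m) ∪
      (univ.filter fun I : Finset (Fin m) => 2 * (Iᶜ).card + y ≤ m) := by
    intro I hI
    rw [Finset.mem_filter] at hI
    rw [Finset.mem_union, Finset.mem_filter, Finset.mem_filter, Finset.card_compl,
      Fintype.card_fin]
    have hIm : I.card ≤ m := by simpa using Finset.card_le_univ I
    rcases lt_abs.mp hI.2 with h | h
    · right
      refine ⟨Finset.mem_univ _, ?_⟩
      omega
    · left
      refine ⟨Finset.mem_univ _, ?_⟩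
      omega
  have h1 : ((univ.filter fun I : Finset (Fin m) => 2 * I.card + y ≤ m).card : ℝ) ≤
      2 ^ m * Real.exp (-(y : ℝ) ^ 2 / (2 * m)) := by
    have := card_set_tail (ι := Fin m) y (Nat.cast_nonneg y)
      (univ.filter fun I : Finset (Fin m) => 2 * I.card + y ≤ m) (by
        intro I hI
        rw [Finset.mem_filter] at hI
        rw [Fintype.card_fin]
        have : ((2 * I.card + y : ℕ) : ℝ) ≤ m := by exact_mod_cast hI.2
        push_cast at this
        linarith)
    simpa using this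
  have h2 : ((univ.filter fun I : Finset (Fin m) => 2 * (Iᶜ).card + y ≤ m).card : ℝ) ≤
      2 ^ m * Real.exp (-(y : ℝ) ^ 2 / (2 * m)) := by
    have e : (univ.filter fun I : Finset (Fin m) => 2 * (Iᶜ).card + y ≤ m).card =
        (univ.filter fun I : Finset (Fin m) => 2 * I.card + y ≤ m).card := by
      apply Finset.card_bij (fun I _ => Iᶜ)
      · intro I hI
        rw [Finset.mem_filter] at hI ⊢
        exact ⟨Finset.mem_univ _, hI.2⟩
      · intro I _ J _ h
        exact compl_injective h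
      · intro I hI
        refine ⟨Iᶜ, ?_, compl_compl I⟩
        rw [Finset.mem_filter] at hI ⊢
        rw [compl_compl]
        exact ⟨Finset.mem_univ _, hI.2⟩
    rw [e]
    exact h1
  calc ((univ.filter fun I : Finset (Fin m) => (y : ℤ) < |2 * (I.card : ℤ) - m|).card : ℝ)
      ≤ (((univ.filter fun I : Finset (Fin m) => 2 * I.card + y ≤ m) ∪
      (univ.filter fun I : Finset (Fin m) => 2 * (Iᶜ).card + y ≤ m)).card : ℝ) := by
        exact_mod_cast Finset.card_le_card hsub
    _ ≤ ((univ.filter fun I : Finset (Fin m) => 2 * I.card + y ≤ m).card : ℝ) +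
        ((univ.filter fun I : Finset (Fin m) => 2 * (Iᶜ).card + y ≤ m).card : ℝ) := by
        exact_mod_cast Finset.card_union_le _ _
    _ ≤ 2 ^ m * Real.exp (-(y : ℝ) ^ 2 / (2 * m)) + 2 ^ m * Real.exp (-(y : ℝ) ^ 2 / (2 * m)) :=
        add_le_add h1 h2
    _ = _ := by ring

/-- MODULE LowTail: the number of sets of size at most `d`. -/
theorem card_low_tail {ι : Type} [Fintype ι] [DecidableEq ι] (d : ℕ) (hd : 2 * d ≤ Fintype.card ι) :
    ((univ.filter fun I : Finset ι => I.card ≤ d).card : ℝ) ≤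
      2 ^ Fintype.card ι *
        Real.exp (-((Fintype.card ι : ℝ) - 2 * d) ^ 2 / (2 * Fintype.card ι)) := by
  have h : (2 * d : ℝ) ≤ Fintype.card ι := by exact_mod_cast hd
  apply card_set_tail
  · linarith
  · intro I hI
    rw [Finset.mem_filter] at hI
    have : (I.card : ℝ) ≤ d := by exact_mod_cast hI.2
    linarith

theorem central_bound (k : ℕ) : (2 * k + 1) * (Nat.centralBinom k) ^ 2 ≤ 2 ^ (4 * k) := by
  induction k with
  | zero => simp
  | succ k ih =>
    have h := Nat.succ_mul_centralBinom_succ k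
    have h2 : (k + 1) ^ 2 * ((2 * (k + 1) + 1) * (Nat.centralBinom (k + 1)) ^ 2) ≤
        (k + 1) ^ 2 * 2 ^ (4 * (k + 1)) := by
      calc (k + 1) ^ 2 * ((2 * (k + 1) + 1) * (Nat.centralBinom (k + 1)) ^ 2)
          = (2 * k + 3) * ((k + 1) * Nat.centralBinom (k + 1)) ^ 2 := by ring
        _ = (2 * k + 3) * (2 * (2 * k + 1) * Nat.centralBinom k) ^ 2 := by rw [h]
        _ = 4 * (2 * k + 3) * (2 * k + 1) * ((2 * k + 1) * (Nat.centralBinom k) ^ 2) := by ring
        _ ≤ 4 * (2 * k + 3) * (2 * k + 1) * 2 ^ (4 * k) := Nat.mul_le_mul_left _ ih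
        _ ≤ 16 * (k + 1) ^ 2 * 2 ^ (4 * k) := by
            apply Nat.mul_le_mul_right
            nlinarith
        _ = (k + 1) ^ 2 * 2 ^ (4 * (k + 1)) := by
            rw [show 4 * (k + 1) = 4 * k + 4 by ring, pow_add]; ring
    exact Nat.le_of_mul_le_mul_left h2 (by positivity)

theorem mul_choose_sq_le (μ j : ℕ) : μ * (μ.choose j) ^ 2 ≤ 4 ^ μ := by
  have h1 : μ.choose j ≤ μ.choose (μ / 2) := Nat.choose_le_middle j μ
  refine (Nat.mul_le_mul_left μ (Nat.pow_le_pow_left h1 2)).trans ?_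
  obtain ⟨k, rfl | rfl⟩ := Nat.even_or_odd' μ
  · have h2 : 2 * k / 2 = k := by omega
    rw [h2]
    have h3 := central_bound k
    rw [Nat.centralBinom] at h3
    calc 2 * k * (2 * k).choose k ^ 2 ≤ (2 * k + 1) * (2 * k).choose k ^ 2 :=
          Nat.mul_le_mul_right _ (by omega)
      _ ≤ 2 ^ (4 * k) := h3
      _ = 4 ^ (2 * k) := by
          rw [show (4 : ℕ) = 2 ^ 2 by norm_num, ← pow_mul]; congr 1; ring
  · have h2 : (2 * k + 1) / 2 = k := by omega
    rw [h2]
    have h3 := central_bound (k + 1)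
    have h4 : Nat.centralBinom (k + 1) = 2 * (2 * k + 1).choose k := by
      rw [Nat.centralBinom, show 2 * (k + 1) = (2 * k + 1) + 1 by ring, Nat.choose_succ_succ]
      have : (2 * k + 1).choose (k + 1) = (2 * k + 1).choose k := by
        apply Nat.choose_symm_of_eq_add; omega
      rw [this]; ring
    rw [h4] at h3
    have h5 : 4 * ((2 * k + 1) * (2 * k + 1).choose k ^ 2) ≤ 4 * 4 ^ (2 * k + 1) := by
      calc 4 * ((2 * k + 1) * (2 * k + 1).choose k ^ 2)
          ≤ (2 * (k + 1) + 1) * (2 * (2 * k + 1).choose k) ^ 2 := by nlinarith [Nat.zero_le ((2 * k + 1).choose k ^ 2)]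
        _ ≤ 2 ^ (4 * (k + 1)) := h3
        _ = 4 * 4 ^ (2 * k + 1) := by
            rw [← pow_succ', show (4 : ℕ) = 2 ^ 2 by norm_num, ← pow_mul]; congr 1; ring
    omega

/-- MODULE Anti: anticoncentration. `choose μ j ≤ 2^μ / √μ`, and at most `y` values `j` satisfy
`|2j - μ| < y`. -/
theorem card_near_half (μ y : ℕ) (hy : 64 ^ 2 * y ^ 2 ≤ μ) (hμ : 1 ≤ μ) :
    64 * (univ.filter fun x : Fin μ → Bool =>
      |2 * ((univ.filter fun k => x k = true).card : ℤ) - μ| < y).card ≤ 2 ^ μ := by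
  rw [card_bool_eq_card_set (fun v => |2 * (v : ℤ) - μ| < y)]
  have hyμ : y ≤ μ := by nlinarith
  have hsub : (univ.filter fun I : Finset (Fin μ) => |2 * (I.card : ℤ) - μ| < y) ⊆
      (Finset.Ico ((μ - y) / 2 + 1) ((μ - y) / 2 + 1 + y)).biUnion
        (fun j => Finset.powersetCard j univ) := by
    intro I hI
    rw [Finset.mem_filter, abs_lt] at hI
    rw [Finset.mem_biUnion]
    refine ⟨I.card, ?_, ?_⟩
    · rw [Finset.mem_Ico]
      omega
    · rw [Finset.mem_powersetCard]; exact ⟨Finset.subset_univ _, rfl⟩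
  have h1 : (univ.filter fun I : Finset (Fin μ) => |2 * (I.card : ℤ) - μ| < y).card ≤
      y * μ.choose (μ / 2) := by
    refine (Finset.card_le_card hsub).trans (Finset.card_biUnion_le.trans ?_)
    calc ∑ j ∈ Finset.Ico ((μ - y) / 2 + 1) ((μ - y) / 2 + 1 + y),
          (Finset.powersetCard j (univ : Finset (Fin μ))).card
        ≤ ∑ _j ∈ Finset.Ico ((μ - y) / 2 + 1) ((μ - y) / 2 + 1 + y), μ.choose (μ / 2) := by
          refine Finset.sum_le_sum fun j _ => ?_
          rw [Finset.card_powersetCard, Finset.card_univ, Fintype.card_fin]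
          exact Nat.choose_le_middle j μ
      _ = y * μ.choose (μ / 2) := by
          rw [Finset.sum_const, smul_eq_mul, Nat.card_Ico]
          congr 1
          omega
  have h2 : (64 * (y * μ.choose (μ / 2))) ^ 2 ≤ (2 ^ μ) ^ 2 := by
    calc (64 * (y * μ.choose (μ / 2))) ^ 2 = (64 ^ 2 * y ^ 2) * (μ.choose (μ / 2)) ^ 2 := by ring
      _ ≤ μ * (μ.choose (μ / 2)) ^ 2 := Nat.mul_le_mul_right _ hy
      _ ≤ 4 ^ μ := mul_choose_sq_le μ _
      _ = (2 ^ μ) ^ 2 := by
          rw [← pow_mul, show (4 : ℕ) = 2 ^ 2 by norm_num, ← pow_mul]; congr 1; ring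
  have h3 : 64 * (y * μ.choose (μ / 2)) ≤ 2 ^ μ := (Nat.pow_le_pow_iff_left (by norm_num)).mp h2
  calc 64 * (univ.filter fun I : Finset (Fin μ) => |2 * (I.card : ℤ) - μ| < y).card
      ≤ 64 * (y * μ.choose (μ / 2)) := Nat.mul_le_mul_left _ h1
    _ ≤ 2 ^ μ := h3

end P346Q
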