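import Vale.Agent.P346Q.TauDef
import Vale.Agent.P346Q.BP

namespace P346Q

open MvPolynomial P346 Finset

variable {K : Type} [Field K]

/-- programs given by a list of matrices -/
theorem TauBP_of_list {A : Type} [CommRing A] [Algebra K A] {Lab : Submodule K A} {w l : ℕ} {f : A}
    {S : Type} [Fintype S] [DecidableEq S] (hS : Fintype.card S ≤ w) (u : S → K)
    (L : List (Matrix S S A)) (hl : L.length = l) (v : S → K)
    (hM : ∀ M ∈ L, ∀ a b, M a b ∈ Lab)
    (hf : f = ∑ a, ∑ b, algebraMap K A (u a) * L.prod a b * algebraMap K A (v b)) :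
    IsBP Lab w l f := by
  subst hl
  refine isBP_of_fintype hS u (fun j => L.get j) v (fun j a b => hM _ (List.get_mem _ _) a b) ?_
  rw [List.ofFn_get]
  exact hf

theorem TauBP_hockey (b : ℕ → ℕ) (hb : ∀ k, b k ≤ 1) (n t : ℕ) :
    ∑ k ∈ range t, b k * (∑ i ∈ range k, b i).choose n = (∑ i ∈ range t, b i).choose (n + 1) := by
  induction t with
  | zero => simp
  | succ t ih =>
    rw [sum_range_succ, sum_range_succ, ih]
    rcases Nat.le_one_iff_eq_zero_or_eq_one.mp (hb t) with h | h
    · rw [h, zero_mul, add_zero, add_zero]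
    · rw [h, one_mul, Nat.choose_succ_succ', add_comm]

/-- the value of a superlayer -/
def TauBP_Q {A : Type} [CommRing A] {m : ℕ} (c : A) (g : Fin m → A) :
    Matrix (Option (Fin (m + 1))) (Option (Fin (m + 1))) A
  | some i, some k' => Fin.cases (motive := fun _ => A) 0
      (fun k => if i ≤ k.castSucc then g k else 0) k'
  | some _, none => c
  | none, none => 1
  | none, some _ => 0

/-- the entries of a diagonal layer -/
def TauBP_d {A : Type} [CommRing A] {m : ℕ} (g : Fin m → A) : Option (Fin (m + 1)) → A
  | none => 1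
  | some k' => Fin.cases (motive := fun _ => A) 1 g k'

theorem TauBP_Q_mul {A : Type} [CommRing A] {m : ℕ} (c : A) (g g' : Fin m → A) :
    TauBP_Q c g * Matrix.diagonal (TauBP_d g') = TauBP_Q c (g * g') := by
  ext s t
  rw [Matrix.mul_diagonal]
  rcases s with _ | i <;> rcases t with _ | k'
  · exact mul_one _
  · exact zero_mul _
  · exact mul_one _
  · refine Fin.cases ?_ (fun k => ?_) k'
    · exact zero_mul _
    · show (if i ≤ k.castSucc then g k else 0) * g' k = if i ≤ k.castSucc then g k * g' k else 0
      split_ifs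
      · rfl
      · exact zero_mul _

theorem TauBP_Q_list {A : Type} [CommRing A] {m : ℕ} {α : Type} (c : A) (g : Fin m → A)
    (cs : List α) (lin : α → Fin m → A) :
    TauBP_Q c g * (cs.map fun e => Matrix.diagonal (TauBP_d (lin e))).prod =
      TauBP_Q c (g * (cs.map lin).prod) := by
  induction cs generalizing g with
  | nil => simp
  | cons e cs ih =>
    rw [List.map_cons, List.prod_cons, ← mul_assoc, TauBP_Q_mul, ih, List.map_cons,
      List.prod_cons, mul_assoc]

/-- the indicator of `x_{e k} = 0` -/
def TauBP_z [DecidableEq K] {ι : Type} {m : ℕ} (e : Fin m → ι) (k : Fin m) : (ι → K) → K :=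
  fun x => if x (e k) = 0 then 1 else 0

/-- the indicator of `x_{e k} = 0`, as a natural number -/
def TauBP_b [DecidableEq K] {ι : Type} {m : ℕ} (e : Fin m → ι) (x : ι → K) (i : ℕ) : ℕ :=
  if h : i < m then (if x (e ⟨i, h⟩) = 0 then 1 else 0) else 0

theorem TauBP_b_le [DecidableEq K] {ι : Type} {m : ℕ} (e : Fin m → ι) (x : ι → K) (i : ℕ) :
    TauBP_b e x i ≤ 1 := by
  unfold TauBP_b
  split_ifs <;> omega

theorem TauBP_z_eq [DecidableEq K] {ι : Type} {m : ℕ} (e : Fin m → ι) (x : ι → K) (k : Fin m) :
    TauBP_z e k x = (TauBP_b e x k : K) := by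
  unfold TauBP_z TauBP_b
  rw [dif_pos k.2]
  split_ifs <;> simp_all

theorem TauBP_row [DecidableEq K] {ι : Type} {m : ℕ} (e : Fin m → ι) (a : ℕ → K) (x : ι → K)
    (n : ℕ) :
    (((List.range n).map fun j => TauBP_Q (fun _ : ι → K => a j) (TauBP_z e)).prod
        (some 0) none) x =
      ∑ j ∈ range n, a j * ((∑ i ∈ range m, TauBP_b e x i).choose j : K) ∧
    ∀ t ≤ m, ∑ i : Fin (m + 1), (if (i : ℕ) ≤ t then
      (((List.range n).map fun j => TauBP_Q (fun _ : ι → K => a j) (TauBP_z e)).prod
        (some 0) (some i)) x else 0) = ((∑ i ∈ range t, TauBP_b e x i).choose n : K) := by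
  induction n with
  | zero =>
    constructor
    · simp
    · intro t _
      rw [List.range_zero, List.map_nil, List.prod_nil, Fin.sum_univ_succ]
      simp [Fin.succ_ne_zero, eq_comm]
  | succ n ih =>
    obtain ⟨h1, h2⟩ := ih
    rw [List.range_succ, List.map_append, List.prod_append, List.map_singleton,
      List.prod_singleton]
    generalize ((List.range n).map fun j => TauBP_Q (fun _ : ι → K => a j) (TauBP_z e)).prod = P
      at h1 h2 ⊢
    constructor
    · rw [Matrix.mul_apply, Fintype.sum_option]
      show (P (some 0) none * 1 + ∑ i, P (some 0) (some i) * fun _ => a n) x = _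
      rw [sum_range_succ, ← h1, ← h2 m le_rfl, mul_one, Pi.add_apply, Finset.sum_apply, mul_sum]
      congr 1
      apply sum_congr rfl
      intro i _
      rw [if_pos (Nat.lt_succ_iff.mp i.2), Pi.mul_apply, mul_comm]
    · intro t ht
      have h3 : ∀ k : Fin m, (P * TauBP_Q (fun _ : ι → K => a n) (TauBP_z e)) (some 0)
          (some k.succ) x = ((∑ i ∈ range k, TauBP_b e x i).choose n : K) *
            (TauBP_b e x k : K) := by
        intro k
        rw [Matrix.mul_apply, Fintype.sum_option]
        show (P (some 0) none * 0 + ∑ i, P (some 0) (some i) *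
          (if i ≤ k.castSucc then TauBP_z e k else 0)) x = _
        rw [mul_zero, zero_add, Finset.sum_apply, ← h2 k k.2.le, ← TauBP_z_eq, sum_mul]
        apply sum_congr rfl
        intro i _
        have : i ≤ k.castSucc ↔ (i : ℕ) ≤ (k : ℕ) := Iff.rfl
        rw [Pi.mul_apply]
        by_cases h : (i : ℕ) ≤ (k : ℕ)
        · rw [if_pos h, if_pos (this.mpr h)]
        · rw [if_neg h, if_neg (fun h' => h (this.mp h')), zero_mul, Pi.zero_apply, mul_zero]
      have h4 : (P * TauBP_Q (fun _ : ι → K => a n) (TauBP_z e)) (some 0) (some 0) x = 0 := by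
        rw [Matrix.mul_apply, Fintype.sum_option]
        show (P (some 0) none * 0 + ∑ i, P (some 0) (some i) * 0) x = _
        simp
      rw [Fin.sum_univ_succ, h4, ite_self, zero_add, ← TauBP_hockey _ (TauBP_b_le e x)]
      have h5 : ∀ k : Fin m, (if ((k.succ : Fin (m + 1)) : ℕ) ≤ t then
          (P * TauBP_Q (fun _ : ι → K => a n) (TauBP_z e)) (some 0) (some k.succ) x else 0) =
          (fun k : ℕ => if k < t then ((TauBP_b e x k *
            (∑ i ∈ range k, TauBP_b e x i).choose n : ℕ) : K) else 0) (k : ℕ) := by
        intro k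
        have : ((k.succ : Fin (m + 1)) : ℕ) ≤ t ↔ (k : ℕ) < t := by
          rw [Fin.val_succ]
          exact Nat.succ_le_iff
        simp only [this, h3]
        split_ifs
        · push_cast
          ring
        · rfl
      rw [sum_congr rfl fun k _ => h5 k, Fin.sum_univ_eq_sum_range (fun k : ℕ => if k < t then
        ((TauBP_b e x k * (∑ i ∈ range k, TauBP_b e x i).choose n : ℕ) : K) else 0) m,
        ← sum_filter, Nat.cast_sum]
      have h6 : (range m).filter (fun k => k < t) = range t := by
        ext k
        simp only [mem_filter, mem_range]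
        omega
      rw [h6]

theorem TauBP_flatMap {α M : Type} [Monoid M] (l : List α) (f : α → List M) :
    (l.flatMap f).prod = (l.map fun j => (f j).prod).prod := by
  induction l with
  | nil => rfl
  | cons a l ih => rw [List.flatMap_cons, List.prod_append, ih, List.map_cons, List.prod_cons]

theorem TauBP_length {α M : Type} (l : List α) (f : α → List M) (k : ℕ)
    (h : ∀ a, (f a).length = k) : (l.flatMap f).length = k * l.length := by
  induction l with
  | nil => rfl
  | cons a l ih =>
    rw [List.flatMap_cons, List.length_append, ih, List.length_cons, h]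
    ring

/-- `1 - c⁻¹ x_k` -/
def TauBP_lin {ι : Type} {m : ℕ} (e : Fin m → ι) (c : K) (k : Fin m) : (ι → K) → K :=
  fun x => 1 - c⁻¹ * x (e k)

theorem TauBP_lin_prod [Fintype K] [DecidableEq K] {ι : Type} {m : ℕ} (e : Fin m → ι) :
    ((univ.erase (0 : K)).toList.map (TauBP_lin e)).prod = TauBP_z e := by
  rw [Finset.prod_map_toList]
  funext k x
  rw [Finset.prod_apply, Finset.prod_apply]
  unfold TauBP_z TauBP_lin
  split_ifs with h
  · apply Finset.prod_eq_one
    intro c _
    rw [h, mul_zero, sub_zero]
  · apply Finset.prod_eq_zero (mem_erase.mpr ⟨h, mem_univ _⟩)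
    rw [inv_mul_cancel₀ h, sub_self]

theorem TauBP_one_mem {ι : Type} : (1 : (ι → K) → K) ∈ LabX K ι :=
  Submodule.subset_span (Or.inl rfl)

theorem TauBP_cst_mem {ι : Type} (c : K) : (fun _ : ι → K => c) ∈ LabX K ι := by
  have : (fun _ : ι → K => c) = c • (1 : (ι → K) → K) := by
    funext x
    simp
  rw [this]
  exact Submodule.smul_mem _ _ TauBP_one_mem

theorem TauBP_lin_mem {ι : Type} {m : ℕ} (e : Fin m → ι) (c : K) (k : Fin m) :
    TauBP_lin e c k ∈ LabX K ι := by
  have : TauBP_lin e c k = 1 - c⁻¹ • (fun x : ι → K => x (e k)) := by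
    funext x
    rfl
  rw [this]
  exact Submodule.sub_mem _ TauBP_one_mem
    (Submodule.smul_mem _ _ (Submodule.subset_span (Or.inr ⟨e k, rfl⟩)))

theorem TauBP_card [DecidableEq K] {ι : Type} {m : ℕ} (e : Fin m → ι) (x : ι → K) :
    (univ.filter fun k : Fin m => x (e k) = 0).card = ∑ i ∈ range m, TauBP_b e x i := by
  rw [card_filter, ← Fin.sum_univ_eq_sum_range]
  apply sum_congr rfl
  intro k _
  unfold TauBP_b
  rw [dif_pos k.2]

/-- MODULE TauBP: the gadget is computed by a program of width `m + 2` and length
`(q - 1) (D + 1)`. States: `none` (finished) and `some i`, `i : Fin (m + 1)` (`0` = nothing picked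
yet, `k + 1` = the last picked coordinate is `k`). The superlayer `j` (`0 ≤ j ≤ D`) is the product of
`q - 1` layers; its value is the matrix with entries `[x_k = 0]` from `some i` to `some (k+1)` for
`i ≤ k`, `a j` from `some i` to `none`, `1` from `none` to `none`; here
`[x_k = 0] = ∏_{c ≠ 0} (1 - c⁻¹ x_k)` (first factor in the first layer, the others in diagonal
layers). After `j` superlayers starting from `some 0` the entry at `some (k+1)` is
`[x_k = 0] * choose (number of zeros before k) (j-1)` and the entry at `none` is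
`∑_{i<j} a_i choose Z i`. -/
theorem tau_isBP [Fintype K] [DecidableEq K] {ι : Type} {m : ℕ} (e : Fin m → ι) (a : ℕ → K)
    (D : ℕ) :
    IsBP (LabX K ι) (m + 2) ((Fintype.card K - 1) * (D + 1))
      (fun x : ι → K => tau a D (fun k => x (e k))) := by
  have hlen : (univ.erase (0 : K)).toList.length = Fintype.card K - 1 := by
    rw [Finset.length_toList, card_erase_of_mem (mem_univ _), card_univ]
  have hprod := TauBP_lin_prod (K := K) e
  obtain ⟨c0, cs, hcs⟩ : ∃ c0 cs, (univ.erase (0 : K)).toList = c0 :: cs := by
    apply List.exists_cons_of_ne_nil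
    intro h
    have h1 : (1 : K) ∈ (univ.erase (0 : K)).toList :=
      Finset.mem_toList.mpr (mem_erase.mpr ⟨one_ne_zero, mem_univ _⟩)
    rw [h] at h1
    exact absurd h1 (List.not_mem_nil)
  rw [hcs] at hlen hprod
  refine TauBP_of_list (S := Option (Fin (m + 1))) (by simp)
    (fun s => if s = some 0 then 1 else 0)
    ((List.range (D + 1)).flatMap fun j =>
      TauBP_Q (fun _ : ι → K => a j) (TauBP_lin e c0) ::
        cs.map fun c => Matrix.diagonal (TauBP_d (TauBP_lin e c)))
    ?_ (fun s => if s = none then 1 else 0) ?_ ?_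
  · rw [TauBP_length _ _ (Fintype.card K - 1), List.length_range]
    intro j
    rw [List.length_cons, List.length_map, ← hlen, List.length_cons]
  · intro M hM s t
    rw [List.mem_flatMap] at hM
    obtain ⟨j, _, hM⟩ := hM
    rcases List.mem_cons.mp hM with rfl | hM
    · rcases s with _ | i <;> rcases t with _ | k'
      · exact TauBP_one_mem
      · exact Submodule.zero_mem _
      · exact TauBP_cst_mem _
      · refine Fin.cases ?_ (fun k => ?_) k'
        · exact Submodule.zero_mem _
        · show (if i ≤ k.castSucc then TauBP_lin e c0 k else 0) ∈ _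
          split_ifs
          · exact TauBP_lin_mem _ _ _
          · exact Submodule.zero_mem _
    · obtain ⟨c, _, rfl⟩ := List.mem_map.mp hM
      rw [Matrix.diagonal_apply]
      split_ifs
      · rcases s with _ | i
        · exact TauBP_one_mem
        · refine Fin.cases ?_ (fun k => ?_) i
          · exact TauBP_one_mem
          · exact TauBP_lin_mem _ _ _
      · exact Submodule.zero_mem _
  · rw [TauBP_flatMap]
    simp only [List.prod_cons, TauBP_Q_list]
    rw [List.map_cons, List.prod_cons] at hprod
    rw [hprod]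
    have h0 : ∀ P : Matrix (Option (Fin (m + 1))) (Option (Fin (m + 1))) ((ι → K) → K),
        (∑ s, ∑ t, algebraMap K ((ι → K) → K) (if s = some 0 then 1 else 0) * P s t *
          algebraMap K ((ι → K) → K) (if t = none then 1 else 0)) = P (some 0) none := by
      intro P
      rw [Finset.sum_eq_single (some 0), Finset.sum_eq_single none]
      · simp
      · intro t _ ht
        rw [if_neg ht, map_zero, mul_zero]
      · intro h
        exact absurd (mem_univ _) h
      · intro s _ hs
        apply Finset.sum_eq_zero
        intro t _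
        rw [if_neg hs, map_zero, zero_mul, zero_mul]
      · intro h
        exact absurd (mem_univ _) h
    rw [h0]
    funext x
    have h := (TauBP_row e a x (D + 1)).1
    unfold tau tauN
    rw [TauBP_card, ← h]

end P346Q
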