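import Vale.Agent.P346Q.Final2

/-!
# P346Q: transfer along isomorphisms of fields; every finite field
-/

namespace P346Q

open P346 MvPolynomial

/-- change of the field of coefficients -/
def mapC {K L V : Type} (f : K → L) (C : Circ K V) : Circ L V where
  n0 := C.n0
  n1 := C.n1
  n2 := C.n2
  n3 := C.n3
  n4 := C.n4
  leaf i := (C.leaf i).map id f
  sum1 i := (C.sum1 i).map fun p => (f p.1, p.2)
  prod2 := C.prod2
  sum3 i := (C.sum3 i).map fun p => (f p.1, p.2)
  prod4 := C.prod4
  out := C.out.map fun p => (f p.1, p.2)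

theorem poly_mapC {K L V : Type} [CommRing K] [CommRing L] (f : K →+* L) (C : Circ K V) :
    (mapC f C).poly = MvPolynomial.map f C.poly := by
  have hlin : ∀ {ι : Type} (l : List (K × ι)) (u : ι → MvPolynomial V K)
      (u' : ι → MvPolynomial V L), (∀ i, u' i = MvPolynomial.map f (u i)) →
      ((l.map fun p => ((f p.1, p.2) : L × ι)).map fun p => p.1 • u' p.2).sum =
        MvPolynomial.map f (l.map fun p => p.1 • u p.2).sum := by
    intro ι l u u' h
    induction l with
    | nil => simp
    | cons p l ih =>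
      simp only [List.map_cons, List.sum_cons, map_add, ih]
      rw [h, MvPolynomial.smul_eq_C_mul, MvPolynomial.smul_eq_C_mul, map_mul, MvPolynomial.map_C]
  have hpro : ∀ {ι : Type} (l : List ι) (u : ι → MvPolynomial V K)
      (u' : ι → MvPolynomial V L), (∀ i, u' i = MvPolynomial.map f (u i)) →
      (l.map u').prod = MvPolynomial.map f (l.map u).prod := by
    intro ι l u u' h
    induction l with
    | nil => simp
    | cons p l ih =>
      simp only [List.map_cons, List.prod_cons, map_mul, ih]
      rw [h]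
  have h0 : ∀ i, (mapC f C).v0 X i = MvPolynomial.map f (C.v0 X i) := by
    intro i
    unfold Circ.v0 mapC
    dsimp only
    rcases C.leaf i with v | c
    · simp
    · simp [MvPolynomial.algebraMap_eq]
  have h1 : ∀ i, (mapC f C).v1 X i = MvPolynomial.map f (C.v1 X i) := fun i =>
    hlin (C.sum1 i) _ _ h0
  have h2 : ∀ i, (mapC f C).v2 X i = MvPolynomial.map f (C.v2 X i) := fun i =>
    hpro (C.prod2 i) _ _ h1
  have h3 : ∀ i, (mapC f C).v3 X i = MvPolynomial.map f (C.v3 X i) := fun i =>
    hlin (C.sum3 i) _ _ h2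
  have h4 : ∀ i, (mapC f C).v4 X i = MvPolynomial.map f (C.v4 X i) := fun i =>
    hpro (C.prod4 i) _ _ h3
  exact hlin C.out _ _ h4

theorem imm_map {K L : Type} [CommRing K] [CommRing L] (f : K →+* L) (n : ℕ) [NeZero n] :
    MvPolynomial.map f (IMM K n n) = IMM L n n := by
  have h1 : ∀ P : Matrix (Fin n) (Fin n) (MvPolynomial (Fin n × Fin n × Fin n) K),
      MvPolynomial.map f (P 0 0) = ((MvPolynomial.map f).mapMatrix P) 0 0 := fun P => rfl
  rw [IMM, h1, map_list_prod, List.map_ofFn, IMM]
  have h3 : (⇑(MvPolynomial.map f).mapMatrix ∘ fun k : Fin n =>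
      (Matrix.of fun a b => X (k, a, b) :
        Matrix (Fin n) (Fin n) (MvPolynomial (Fin n × Fin n × Fin n) K))) =
      fun k => (Matrix.of fun a b => X (k, a, b)) := by
    funext k
    ext a b
    simp
  rw [h3]

/-- The lower bound for every finite field. -/
theorem lower_every_finite (K : Type) [Field K] [Finite K] :
    ∃ c : ℝ, 0 < c ∧ ∀ (n : ℕ) [NeZero n] (C : Circ K (Fin n × Fin n × Fin n)), C.Homog →
      C.poly = IMM K n n → (2 : ℝ) ^ (c * √(n : ℝ)) ≤ C.size := by
  classical
  haveI := Fintype.ofFinite K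
  by_cases hq : 3 ≤ Fintype.card K
  · exact lower_of_three_le hq
  · have hcard : Fintype.card K = 2 := by
      have := Fintype.one_lt_card (α := K)
      omega
    haveI : Fact (Nat.Prime 2) := ⟨Nat.prime_two⟩
    let e : ZMod 2 ≃+* K := ZMod.ringEquivOfPrime K Nat.prime_two hcard
    refine ⟨1 / 46, by norm_num, fun n _ C _ hp => ?_⟩
    have h1 : (mapC e.symm C).poly = IMM (ZMod 2) n n := by
      have := poly_mapC (e.symm : K →+* ZMod 2) C
      rw [hp, imm_map] at this
      exact this
    have h2 : (2 : ℝ) ^ (√(n : ℝ) / 23 - 1) ≤ (C.size : ℝ) := size_lower_real (mapC e.symm C) h1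
    have h3 : (2 : ℝ) ≤ C.size := by exact_mod_cast two_le_size C hp
    by_cases h4 : 1 / 46 * √(n : ℝ) ≤ 1
    · calc (2 : ℝ) ^ (1 / 46 * √(n : ℝ)) ≤ (2 : ℝ) ^ (1 : ℝ) :=
          Real.rpow_le_rpow_of_exponent_le (by norm_num) h4
        _ = 2 := Real.rpow_one 2
        _ ≤ _ := h3
    · push Not at h4
      exact (Real.rpow_le_rpow_of_exponent_le (by norm_num) (by linarith)).trans h2

end P346Q
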